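import Vale.Agent.P272.DEF.Tub
import Vale.Agent.P272.CT.Weak
import Vale.Agent.P272.CT.Calc

/-!
The abstract contraction applied to the Cauchy transform of the unit disc.
-/

open Complex Metric Set Filter Topology MeasureTheory

namespace Vale.Agent.P272.DEF

open Vale.Agent.P272.CT

set_option linter.unusedSectionVars false

variable {E : Type*} [NormedAddCommGroup E] [NormedSpace ℂ E]

/-- the Cauchy transform with the weight `(1-|w|)^(-α)`, `0 ≤ α < 1` -/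
theorem ctProp {α : ℝ} (hα : 0 ≤ α) (hα1 : α < 1) :
    CTProp (cauT (E := E)) (fun w => (1 - ‖w‖) ^ (-α)) (cst α 1 / Real.pi) := by
  have hWB : ∀ (F : ℂ → E) (B : ℝ), ContinuousOn F (ball 0 1) →
      (∀ w ∈ ball (0:ℂ) 1, ‖F w‖ ≤ B * (1 - ‖w‖) ^ (-α)) → WB α B F := fun F B hF hb =>
    ⟨hF.aestronglyMeasurable measurableSet_ball, hb⟩
  refine ⟨?_, ?_, ?_, ?_, ?_, ?_, ?_, ?_⟩
  · intro z hz
    rw [mem_ball_zero_iff] at hz
    exact Real.rpow_pos_of_pos (by linarith) _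
  · intro z hz
    rw [mem_ball_zero_iff] at hz
    refine ContinuousAt.continuousWithinAt ?_
    refine ContinuousAt.rpow_const (by fun_prop) (Or.inl ?_)
    linarith
  · exact div_nonneg (cst_nonneg _ _) Real.pi_pos.le
  · intro F B hF hb
    exact ((hWB F B hF hb).continuous_cauT hα hα1).continuousOn
  · intro F B hF hb z _
    exact (hWB F B hF hb).norm_cauT_le hα hα1 z
  · intro F G B hF hG hb hb' z _
    exact WB.cauT_add hα hα1 (hWB F B hF hb) (hWB G B hG hb') z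
  · intro c F B _ _ z _
    exact cauT_smul c F z
  · intro F G hFG z _
    rw [cauT_congr hFG]

/-- the Cauchy transform on bounded functions -/
theorem ctProp1 : CTProp (cauT (E := E)) (fun _ => 1) (cst 0 1 / Real.pi) := by
  have h := ctProp (E := E) (α := 0) le_rfl one_pos
  have e : (fun w : ℂ => (1 - ‖w‖) ^ (-(0:ℝ))) = fun _ => (1:ℝ) := by
    funext w; simp
  rwa [e] at h

variable [CompleteSpace E] {P : Type*} [NormedAddCommGroup P] [NormedSpace ℂ P]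

/-- continuity of `w ↦ Q w (v w)` -/
theorem QProp.contOn {Q : ℂ → E → E} {κ : ℂ → ℝ} {ρ A : ℝ} (hQ : QProp Q κ ρ A) {v : ℂ → E}
    (hv : ContinuousOn v (ball 0 1)) (hb : ∀ z ∈ ball (0:ℂ) 1, ‖v z‖ < ρ) :
    ContinuousOn (fun w => Q w (v w)) (ball 0 1) := by
  have h1 : ContinuousOn (fun w : ℂ => (w, v w)) (ball 0 1) := continuousOn_id.prodMk hv
  exact hQ.cont.comp h1 fun w hw => ⟨hw, mem_ball_zero_iff.2 (hb w hw)⟩

/-- the weak `∂̄` equation of a solution of the integral equation -/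
theorem QProp.wdb {α : ℝ} (hα : 0 ≤ α) (hα1 : α < 1) {Q : ℂ → E → E} {ρ A : ℝ}
    (hQ : QProp Q (fun w => (1 - ‖w‖) ^ (-α)) ρ A) {v g : ℂ → E}
    (hv : ContinuousOn v (ball 0 1)) (hb : ∀ z ∈ ball (0:ℂ) 1, ‖v z‖ < ρ)
    (hg : DifferentiableOn ℂ g (ball 0 1))
    (he : ∀ z ∈ ball (0:ℂ) 1, v z = g z - cauT (fun w => Q w (v w)) z) :
    WDb (ball 0 1) v fun z => - Q z (v z) := by
  have hc := hQ.contOn hv hb
  have hWB : WB α (A * ρ ^ 2) (fun w => Q w (v w)) := by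
    refine ⟨hc.aestronglyMeasurable measurableSet_ball, fun w hw => ?_⟩
    refine (hQ.bd w hw _ (hb w hw)).trans ?_
    have h1 := hb w hw
    have h2 := hQ.hA
    have h3 : 0 ≤ (1 - ‖w‖) ^ (-α) := Real.rpow_nonneg (by
      rw [mem_ball_zero_iff] at hw; linarith) _
    gcongr
  have h1 := WDb.of_holo isOpen_ball hg
  have h2 := wdb_cauT (hWB.integrableOn hα hα1)
  have h3 := WDb.sub isOpen_ball hg.continuousOn (q := fun _ => (0:E)) continuousOn_const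
    (hWB.continuous_cauT hα hα1).continuousOn hc h1 h2
  exact h3.congr (fun z hz => (he z hz).symm) fun z _ => zero_sub _

/-- **Tube lemma for the Cauchy transform** (bounded `Q`): `∂̄_z a(x,z) = -Q(z, a(x,z))`. -/
theorem tube_cauT {Q : ℂ → E → E} {ρ A : ℝ} (hQ : QProp Q (fun _ => 1) ρ A)
    {W : ℂ → P →L[ℂ] E} (hW : ContinuousOn W (closedBall 0 1))
    (hWh : ∀ x, DifferentiableOn ℂ (fun z => W z x) (ball 0 1)) :
    ∃ δ > 0, ∃ C : ℝ, 0 ≤ C ∧ ∃ a : P → ℂ → E,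
      ContinuousOn (fun p : P × ℂ => a p.1 p.2) (ball 0 δ ×ˢ closedBall 0 1) ∧
      (∀ k : P, ContinuousOn (fun p : P × ℂ => fderiv ℂ (fun x => a x p.2) p.1 k)
        (ball 0 δ ×ˢ closedBall 0 1)) ∧
      (∀ z ∈ closedBall (0:ℂ) 1, DifferentiableOn ℂ (fun x => a x z) (ball 0 δ)) ∧
      (∀ z, a 0 z = 0) ∧
      (∀ z ∈ closedBall (0:ℂ) 1, HasFDerivAt (fun x => a x z) (W z) 0) ∧
      (∀ x ∈ ball (0:P) δ, ∀ z, ‖a x z‖ < ρ) ∧
      (∀ x ∈ ball (0:P) δ, ∀ z, ‖a x z‖ ≤ C * ‖x‖) ∧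
      (∀ x ∈ ball (0:P) δ, ∀ z ∈ closedBall (0:ℂ) 1, ‖a x z - W z x‖ ≤ C * ‖x‖ ^ 2) ∧
      (∀ x ∈ ball (0:P) δ, ∀ y ∈ ball (0:P) δ, ∀ z ∈ closedBall (0:ℂ) 1,
        ‖(a x z - W z x) - (a y z - W z y)‖ ≤ C * (‖x‖ + ‖y‖) * ‖x - y‖) ∧
      (∀ x ∈ ball (0:P) δ, WDb (ball 0 1) (a x) fun z => - Q z (a x z)) := by
  obtain ⟨δ, hδ, C, hC, a, h1, h2, h3, h4, h5, h6, h7, h8, h9, h10⟩ := tube ctProp1 hQ hW
  refine ⟨δ, hδ, C, hC, a, h1, h2, h3, h4, h5, h6, h7, h8, h9, ?_⟩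
  intro x hx
  have hQ' : QProp Q (fun w => (1 - ‖w‖) ^ (-(0:ℝ))) ρ A := by
    have e : (fun w : ℂ => (1 - ‖w‖) ^ (-(0:ℝ))) = fun _ => (1:ℝ) := by
      funext w; simp
    rwa [e]
  refine hQ'.wdb le_rfl one_pos ?_ (fun z _ => h6 x hx z) (hWh x)
    fun z hz => h10 x hx z (ball_subset_closedBall hz)
  have h11 : ContinuousOn (fun z : ℂ => ((x, z) : P × ℂ)) (ball 0 1) := by fun_prop
  exact h1.comp h11 fun z hz => ⟨hx, ball_subset_closedBall hz⟩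

/-- `Q` bounded and continuous on the closed disc -/
theorem QProp.of_closed {Q : ℂ → E → E} {ρ A : ℝ} (hρ : 0 < ρ) (hA : 0 ≤ A)
    (hc : ContinuousOn (Function.uncurry Q) (closedBall 0 1 ×ˢ ball 0 ρ))
    (hh : ∀ z ∈ closedBall (0:ℂ) 1, DifferentiableOn ℂ (Q z) (ball 0 ρ))
    (hb : ∀ z ∈ closedBall (0:ℂ) 1, ∀ v, ‖v‖ < ρ → ‖Q z v‖ ≤ A * ‖v‖ ^ 2) :
    QProp Q (fun _ => 1) ρ A :=
  ⟨hρ, hA, hc.mono (prod_mono ball_subset_closedBall Subset.rfl),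
    fun z hz => hh z (ball_subset_closedBall hz),
    fun z hz v hv => by rw [mul_one]; exact hb z (ball_subset_closedBall hz) v hv⟩

/-- the parameter space is the fibre itself and `W = id` -/
theorem tube_id {Q : ℂ → E → E} {ρ A : ℝ} (hQ : QProp Q (fun _ => 1) ρ A) :
    ∃ δ > 0, ∃ C : ℝ, 0 ≤ C ∧ ∃ a : E → ℂ → E,
      ContinuousOn (fun p : E × ℂ => a p.1 p.2) (ball 0 δ ×ˢ closedBall 0 1) ∧
      (∀ k : E, ContinuousOn (fun p : E × ℂ => fderiv ℂ (fun x => a x p.2) p.1 k)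
        (ball 0 δ ×ˢ closedBall 0 1)) ∧
      (∀ z ∈ closedBall (0:ℂ) 1, DifferentiableOn ℂ (fun x => a x z) (ball 0 δ)) ∧
      (∀ z, a 0 z = 0) ∧
      (∀ z ∈ closedBall (0:ℂ) 1, HasFDerivAt (fun x => a x z) (ContinuousLinearMap.id ℂ E) 0) ∧
      (∀ x ∈ ball (0:E) δ, ∀ z, ‖a x z‖ < ρ) ∧
      (∀ x ∈ ball (0:E) δ, ∀ z, ‖a x z‖ ≤ C * ‖x‖) ∧
      (∀ x ∈ ball (0:E) δ, ∀ z ∈ closedBall (0:ℂ) 1, ‖a x z - x‖ ≤ C * ‖x‖ ^ 2) ∧
      (∀ x ∈ ball (0:E) δ, ∀ y ∈ ball (0:E) δ, ∀ z ∈ closedBall (0:ℂ) 1,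
        ‖(a x z - x) - (a y z - y)‖ ≤ C * (‖x‖ + ‖y‖) * ‖x - y‖) ∧
      (∀ x ∈ ball (0:E) δ, WDb (ball 0 1) (a x) fun z => - Q z (a x z)) :=
  tube_cauT hQ (W := fun _ => ContinuousLinearMap.id ℂ E) continuousOn_const
    fun _ => differentiableOn_const _

end Vale.Agent.P272.DEF
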