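import Vale.Agent.P272.DEF.Main

/-!
Concrete form on the closed unit disc: the deformation `v s z` with
`v s z = s W z - (CT[Q(·, v s ·)] z - CT[Q(·, v s ·)] 0)`.
-/

open Complex Metric Set Filter Topology
open scoped BoundedContinuousFunction

namespace Vale.Agent.P272.DEF

set_option linter.unusedSectionVars false

variable {E : Type*} [NormedAddCommGroup E] [NormedSpace ℂ E]

/-- The closed unit disc as a compact space. -/
abbrev KK : Type := closedBall (0:ℂ) 1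

/-- The open unit disc. -/
abbrev DD : Type := ball (0:ℂ) 1

/-- The inclusion. -/
def jj : C(DD, KK) := ⟨fun z => ⟨z.1, ball_subset_closedBall z.2⟩, by fun_prop⟩

/-- The origin. -/
def k0 : KK := ⟨0, by simp⟩

/-- The abstract properties of the Cauchy transform with weight `κ` that are used:
`T` is linear on functions `F` continuous on the open disc with `|F| ≤ B κ`, only depends on the
values on the open disc, and maps them to functions continuous on the closed disc, bounded by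
`C₀ B`. -/
structure CTProp (T : (ℂ → E) → ℂ → E) (κ : ℂ → ℝ) (C₀ : ℝ) : Prop where
  κpos : ∀ z ∈ ball (0:ℂ) 1, 0 < κ z
  κcont : ContinuousOn κ (ball 0 1)
  C₀nn : 0 ≤ C₀
  cont : ∀ (F : ℂ → E) (B : ℝ), ContinuousOn F (ball 0 1) → (∀ w ∈ ball (0:ℂ) 1, ‖F w‖ ≤ B * κ w) →
    ContinuousOn (T F) (closedBall 0 1)
  bd : ∀ (F : ℂ → E) (B : ℝ), ContinuousOn F (ball 0 1) → (∀ w ∈ ball (0:ℂ) 1, ‖F w‖ ≤ B * κ w) →
    ∀ z ∈ closedBall (0:ℂ) 1, ‖T F z‖ ≤ C₀ * B
  add : ∀ (F G : ℂ → E) (B : ℝ), ContinuousOn F (ball 0 1) → ContinuousOn G (ball 0 1) →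
    (∀ w ∈ ball (0:ℂ) 1, ‖F w‖ ≤ B * κ w) → (∀ w ∈ ball (0:ℂ) 1, ‖G w‖ ≤ B * κ w) →
    ∀ z ∈ closedBall (0:ℂ) 1, T (F + G) z = T F z + T G z
  smul : ∀ (c : ℂ) (F : ℂ → E) (B : ℝ), ContinuousOn F (ball 0 1) →
    (∀ w ∈ ball (0:ℂ) 1, ‖F w‖ ≤ B * κ w) →
    ∀ z ∈ closedBall (0:ℂ) 1, T (c • F) z = c • T F z
  congr : ∀ (F G : ℂ → E), (∀ w ∈ ball (0:ℂ) 1, F w = G w) →
    ∀ z ∈ closedBall (0:ℂ) 1, T F z = T G z

open Classical in
/-- Weighted extension by zero. -/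
noncomputable def ext (κ : ℂ → ℝ) (y : DD →ᵇ E) (w : ℂ) : E :=
  if h : w ∈ ball (0:ℂ) 1 then (κ w : ℂ) • y ⟨w, h⟩ else 0

theorem ext_apply (κ : ℂ → ℝ) (y : DD →ᵇ E) {w : ℂ} (h : w ∈ ball (0:ℂ) 1) :
    ext κ y w = (κ w : ℂ) • y ⟨w, h⟩ := by rw [ext, dif_pos h]

theorem ext_add (κ : ℂ → ℝ) (y y' : DD →ᵇ E) : ext κ (y + y') = ext κ y + ext κ y' := by
  funext w
  by_cases h : w ∈ ball (0:ℂ) 1
  · simp [ext, h]
  · simp [ext, h]

theorem ext_smul (κ : ℂ → ℝ) (c : ℂ) (y : DD →ᵇ E) : ext κ (c • y) = c • ext κ y := by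
  funext w
  by_cases h : w ∈ ball (0:ℂ) 1
  · simp only [ext, h, dif_pos, BoundedContinuousFunction.coe_smul, Pi.smul_apply]
    rw [smul_comm]
  · simp [ext, h]

theorem ext_cont {κ : ℂ → ℝ} (hκ : ContinuousOn κ (ball 0 1)) (y : DD →ᵇ E) :
    ContinuousOn (ext κ y) (ball 0 1) := by
  rw [continuousOn_iff_continuous_domRestrict]
  have h : (ball (0:ℂ) 1).domRestrict (ext κ y) = fun z : DD => (κ z : ℂ) • y z := by
    funext z
    change ext κ y z.1 = _
    rw [ext_apply κ y z.2]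
  rw [h]
  have h2 : Continuous fun z : DD => κ z := continuousOn_iff_continuous_domRestrict.1 hκ
  have h3 : Continuous fun z : DD => ((κ z : ℝ) : ℂ) := continuous_ofReal.comp h2
  exact h3.smul y.continuous

theorem ext_bd {κ : ℂ → ℝ} (hκ : ∀ z ∈ ball (0:ℂ) 1, 0 < κ z) (y : DD →ᵇ E) :
    ∀ w ∈ ball (0:ℂ) 1, ‖ext κ y w‖ ≤ ‖y‖ * κ w := by
  intro w hw
  rw [ext_apply κ y hw, norm_smul, Complex.norm_real, Real.norm_of_nonneg (hκ w hw).le, mul_comm]
  have := y.norm_coe_le_norm ⟨w, hw⟩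
  have := (hκ w hw).le
  gcongr

variable {T : (ℂ → E) → ℂ → E} {κ : ℂ → ℝ} {C₀ : ℝ}

/-- The bounded operator built from the Cauchy transform. -/
noncomputable def CTProp.S (h : CTProp T κ C₀) : (DD →ᵇ E) →L[ℂ] C(KK, E) :=
  LinearMap.mkContinuous
    { toFun := fun y => ⟨fun z => T (ext κ y) z.1, by
        have := h.cont (ext κ y) ‖y‖ (ext_cont h.κcont y) (ext_bd h.κpos y)
        exact continuousOn_iff_continuous_domRestrict.1 this⟩
      map_add' := by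
        intro y y'
        ext z
        change T (ext κ (y + y')) z.1 = T (ext κ y) z.1 + T (ext κ y') z.1
        rw [ext_add]
        refine h.add _ _ (max ‖y‖ ‖y'‖) (ext_cont h.κcont y) (ext_cont h.κcont y') ?_ ?_ _ z.2
        · intro w hw
          refine (ext_bd h.κpos y w hw).trans ?_
          have := (h.κpos w hw).le
          gcongr
          exact le_max_left _ _
        · intro w hw
          refine (ext_bd h.κpos y' w hw).trans ?_
          have := (h.κpos w hw).le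
          gcongr
          exact le_max_right _ _
      map_smul' := by
        intro c y
        ext z
        change T (ext κ (c • y)) z.1 = c • T (ext κ y) z.1
        rw [ext_smul]
        exact h.smul c _ ‖y‖ (ext_cont h.κcont y) (ext_bd h.κpos y) _ z.2 }
    C₀ (by
      intro y
      rw [ContinuousMap.norm_le _ (mul_nonneg h.C₀nn (norm_nonneg _))]
      intro z
      exact h.bd _ _ (ext_cont h.κcont y) (ext_bd h.κpos y) _ z.2)

theorem CTProp.S_apply (h : CTProp T κ C₀) (y : DD →ᵇ E) (z : KK) :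
    h.S y z = T (ext κ y) z.1 := rfl

/-- `S` normalised to vanish at the origin. -/
noncomputable def CTProp.S0 (h : CTProp T κ C₀) : (DD →ᵇ E) →L[ℂ] C(KK, E) :=
  LinearMap.mkContinuous
    { toFun := fun y => h.S y - ContinuousMap.const KK (h.S y k0)
      map_add' := by
        intro y y'; ext z; simp; abel
      map_smul' := by
        intro c y; ext z; simp [smul_sub] }
    (‖h.S‖ + ‖h.S‖) (by
      intro y
      refine (norm_sub_le _ _).trans ?_
      rw [add_mul]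
      have h1 := h.S.le_opNorm y
      have h2 : ‖ContinuousMap.const KK (h.S y k0)‖ ≤ ‖h.S‖ * ‖y‖ := by
        rw [ContinuousMap.norm_le _ (by positivity)]
        intro z
        exact ((h.S y).norm_coe_le_norm k0).trans h1
      exact add_le_add h1 h2)

theorem CTProp.S0_apply (h : CTProp T κ C₀) (y : DD →ᵇ E) (z : KK) :
    h.S0 y z = T (ext κ y) z.1 - T (ext κ y) 0 := rfl

/-- The assumptions on `Q`. -/
structure QProp (Q : ℂ → E → E) (κ : ℂ → ℝ) (ρ A : ℝ) : Prop where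
  hρ : 0 < ρ
  hA : 0 ≤ A
  cont : ContinuousOn (Function.uncurry Q) (ball 0 1 ×ˢ ball 0 ρ)
  hol : ∀ z ∈ ball (0:ℂ) 1, DifferentiableOn ℂ (Q z) (ball 0 ρ)
  bd : ∀ z ∈ ball (0:ℂ) 1, ∀ v, ‖v‖ < ρ → ‖Q z v‖ ≤ A * ‖v‖ ^ 2 * κ z

/-- The weighted Nemytskii data. -/
noncomputable def QProp.data {Q : ℂ → E → E} {ρ A : ℝ} (hQ : QProp Q κ ρ A)
    (hκ : ∀ z ∈ ball (0:ℂ) 1, 0 < κ z) (hκc : ContinuousOn κ (ball 0 1)) : NData DD E E where
  q z v := ((κ z : ℂ))⁻¹ • Q z v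
  ρ := ρ
  A := A
  hρ := hQ.hρ
  hA := hQ.hA
  cont := by
    have h1 : ContinuousOn (fun p : DD × E => Q p.1 p.2) (univ ×ˢ ball 0 ρ) := by
      have h0 : ContinuousOn (fun p : DD × E => ((p.1 : ℂ), p.2)) (univ ×ˢ ball 0 ρ) := by
        fun_prop
      refine hQ.cont.comp h0 ?_
      intro p hp
      exact ⟨p.1.2, hp.2⟩
    have h2 : Continuous fun z : DD => κ z := continuousOn_iff_continuous_domRestrict.1 hκc
    have h3 : Continuous fun p : DD × E => (((κ p.1 : ℝ) : ℂ))⁻¹ := by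
      refine Continuous.inv₀ (continuous_ofReal.comp (h2.comp continuous_fst)) ?_
      intro p
      exact_mod_cast (hκ _ p.1.2).ne'
    exact h3.continuousOn.smul h1
  hol z := (hQ.hol z.1 z.2).const_smul _
  bd z v hv := by
    have h1 := hQ.bd z.1 z.2 v hv
    have h2 := hκ z.1 z.2
    rw [norm_smul, norm_inv, Complex.norm_real, Real.norm_of_nonneg h2.le]
    rw [inv_mul_le_iff₀ h2]
    linarith

variable [CompleteSpace E]

/-- **Nonlinear deformation lemma.** -/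
theorem deform (h : CTProp T κ C₀) {Q : ℂ → E → E} {ρ A : ℝ} (hQ : QProp Q κ ρ A)
    {W : ℂ → E} (hW : ContinuousOn W (closedBall 0 1)) (hW0 : W 0 = 0) :
    ∃ ε > 0, ∃ C : ℝ, ∃ v : ℂ → ℂ → E,
      ContinuousOn (Function.uncurry v) (ball 0 ε ×ˢ closedBall 0 1) ∧
      ContinuousOn (fun p : ℂ × ℂ => deriv (fun s => v s p.2) p.1)
        (ball 0 ε ×ˢ closedBall 0 1) ∧
      (∀ z ∈ closedBall (0:ℂ) 1, DifferentiableOn ℂ (fun s => v s z) (ball 0 ε)) ∧
      (∀ z, v 0 z = 0) ∧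
      (∀ z ∈ closedBall (0:ℂ) 1, HasDerivAt (fun s => v s z) (W z) 0) ∧
      (∀ s ∈ ball (0:ℂ) ε, v s 0 = 0) ∧
      (∀ s ∈ ball (0:ℂ) ε, ∀ z, ‖v s z‖ < ρ ∧ ‖v s z‖ ≤ C * ‖s‖) ∧
      (∀ s ∈ ball (0:ℂ) ε, ∀ z ∈ closedBall (0:ℂ) 1,
        v s z = s • W z - (T (fun w => Q w (v s w)) z - T (fun w => Q w (v s w)) 0)) := by
  classical
  set Δ := hQ.data h.κpos h.κcont with hΔ
  set S0 := h.S0 with hS0
  set W' : C(KK, E) := ⟨fun z => W z.1, continuousOn_iff_continuous_domRestrict.1 hW⟩ with hW'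
  set u : ℂ → C(KK, E) := Δ.vs jj S0 W' with hu
  have hεp := Δ.eps_pos S0 W'
  have hhol : DifferentiableOn ℂ u (ball 0 (Δ.eps S0 W')) := Δ.vs_hol jj S0
  have hucont : ContinuousOn u (ball 0 (Δ.eps S0 W')) := hhol.continuousOn
  refine ⟨Δ.eps S0 W', hεp, 2 * ‖W'‖,
    fun s z => if hz : z ∈ closedBall (0:ℂ) 1 then u s ⟨z, hz⟩ else 0, ?_, ?_, ?_, ?_, ?_, ?_,
    ?_, ?_⟩
  · -- joint continuity
    rw [continuousOn_iff_continuous_domRestrict]
    have h1 : Continuous fun p : (ball (0:ℂ) (Δ.eps S0 W') ×ˢ closedBall (0:ℂ) 1 : Set (ℂ × ℂ)) =>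
        u p.1.1 := by
      have := continuousOn_iff_continuous_domRestrict.1 hucont
      exact this.comp (f := fun p : (ball (0:ℂ) (Δ.eps S0 W') ×ˢ closedBall (0:ℂ) 1 :
        Set (ℂ × ℂ)) => (⟨p.1.1, p.2.1⟩ : ball (0:ℂ) (Δ.eps S0 W'))) (by fun_prop)
    have h2 : Continuous fun p : (ball (0:ℂ) (Δ.eps S0 W') ×ˢ closedBall (0:ℂ) 1 : Set (ℂ × ℂ)) =>
        (⟨p.1.2, p.2.2⟩ : KK) := by fun_prop
    have h3 : Continuous fun p : (ball (0:ℂ) (Δ.eps S0 W') ×ˢ closedBall (0:ℂ) 1 : Set (ℂ × ℂ)) =>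
        (u p.1.1) (⟨p.1.2, p.2.2⟩ : KK) := h1.eval h2
    convert h3 using 2 with p
    have hz := p.2.2
    simp only [domRestrict_apply, Function.uncurry]
    rw [dif_pos hz]
  · -- continuity of the s-derivative
    have hd : DifferentiableOn ℂ (deriv u) (ball 0 (Δ.eps S0 W')) := hhol.deriv isOpen_ball
    rw [continuousOn_iff_continuous_domRestrict]
    have h1 : Continuous fun p : (ball (0:ℂ) (Δ.eps S0 W') ×ˢ closedBall (0:ℂ) 1 : Set (ℂ × ℂ)) =>
        deriv u p.1.1 := by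
      have := continuousOn_iff_continuous_domRestrict.1 hd.continuousOn
      exact this.comp (f := fun p : (ball (0:ℂ) (Δ.eps S0 W') ×ˢ closedBall (0:ℂ) 1 :
        Set (ℂ × ℂ)) => (⟨p.1.1, p.2.1⟩ : ball (0:ℂ) (Δ.eps S0 W'))) (by fun_prop)
    have h2 : Continuous fun p : (ball (0:ℂ) (Δ.eps S0 W') ×ˢ closedBall (0:ℂ) 1 : Set (ℂ × ℂ)) =>
        (⟨p.1.2, p.2.2⟩ : KK) := by fun_prop
    have h3 : Continuous fun p : (ball (0:ℂ) (Δ.eps S0 W') ×ˢ closedBall (0:ℂ) 1 : Set (ℂ × ℂ)) =>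
        (deriv u p.1.1) (⟨p.1.2, p.2.2⟩ : KK) := h1.eval h2
    convert h3 using 2 with p
    have hz := p.2.2
    simp only [domRestrict_apply]
    have h4 : HasDerivAt u (deriv u p.1.1) p.1.1 :=
      ((hhol p.1.1 p.2.1).differentiableAt (isOpen_ball.mem_nhds p.2.1)).hasDerivAt
    have h5 := (ContinuousMap.evalCLM ℂ (⟨p.1.2, hz⟩ : KK) :
      C(KK, E) →L[ℂ] E).hasFDerivAt.comp_hasDerivAt p.1.1 h4
    have h6 : deriv (fun s => (u s) (⟨p.1.2, hz⟩ : KK)) p.1.1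
        = (deriv u p.1.1) (⟨p.1.2, hz⟩ : KK) := h5.deriv
    rw [← h6]
    congr 1
    funext s
    rw [dif_pos hz]
  · intro z hz
    have h1 : DifferentiableOn ℂ (fun s => u s ⟨z, hz⟩) (ball 0 (Δ.eps S0 W')) :=
      ((ContinuousMap.evalCLM ℂ (⟨z, hz⟩ : KK) :
        C(KK, E) →L[ℂ] E).differentiable.comp_differentiableOn hhol)
    refine h1.congr ?_
    intro s _
    simp only [dif_pos hz]
  · intro z
    by_cases hz : z ∈ closedBall (0:ℂ) 1
    · simp only [dif_pos hz]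
      have : u 0 = 0 := Δ.vs_zero jj S0
      rw [this]; rfl
    · simp only [dif_neg hz]
  · intro z hz
    have h4 : HasDerivAt u W' 0 := Δ.vs_deriv jj S0
    have h5 := (ContinuousMap.evalCLM ℂ (⟨z, hz⟩ : KK) :
      C(KK, E) →L[ℂ] E).hasFDerivAt.comp_hasDerivAt (0:ℂ) h4
    have h6 : HasDerivAt (fun s => (u s) (⟨z, hz⟩ : KK)) (W z) 0 := h5
    convert h6 using 1
    funext s
    exact dif_pos hz
  · intro s hs
    have h0 : (0:ℂ) ∈ closedBall (0:ℂ) 1 := by simp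
    simp only [dif_pos h0]
    have h1 : u s = s • W' - S0 (Δ.N jj (u s)) := Δ.vs_eq jj S0 hs
    have h2 := congrArg (fun g : C(KK, E) => g ⟨0, h0⟩) h1
    simp only [ContinuousMap.sub_apply, ContinuousMap.smul_apply] at h2
    rw [h2, hS0, h.S0_apply]
    have h3 : W' ⟨0, h0⟩ = 0 := hW0
    rw [h3]
    simp
  · intro s hs z
    by_cases hz : z ∈ closedBall (0:ℂ) 1
    · simp only [dif_pos hz]
      have h1 := (u s).norm_coe_le_norm ⟨z, hz⟩
      refine ⟨h1.trans_lt (Δ.vs_lt jj S0 hs), h1.trans ?_⟩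
      have := Δ.vs_norm jj S0 hs
      linarith
    · simp only [dif_neg hz, norm_zero]
      exact ⟨hQ.hρ, by positivity⟩
  · intro s hs z hz
    have h1 : u s = s • W' - S0 (Δ.N jj (u s)) := Δ.vs_eq jj S0 hs
    have h2 := congrArg (fun g : C(KK, E) => g ⟨z, hz⟩) h1
    simp only [ContinuousMap.sub_apply, ContinuousMap.smul_apply] at h2
    have hext : ∀ w ∈ ball (0:ℂ) 1, ext κ (Δ.N jj (u s)) w
        = Q w (if hz : w ∈ closedBall (0:ℂ) 1 then u s ⟨w, hz⟩ else 0) := by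
      intro w hw
      have hw' : w ∈ closedBall (0:ℂ) 1 := ball_subset_closedBall hw
      rw [ext_apply _ _ hw, Δ.N_apply jj (Δ.vs_lt jj S0 hs), dif_pos hw']
      have hk : (κ w : ℂ) ≠ 0 := by exact_mod_cast (h.κpos w hw).ne'
      change (κ w : ℂ) • (((κ w : ℂ))⁻¹ • Q w (u s ⟨w, hw'⟩)) = _
      rw [smul_smul, mul_inv_cancel₀ hk, one_smul]
    rw [hS0, h.S0_apply] at h2
    rw [h.congr _ _ hext z hz, h.congr _ _ hext 0 (by simp)] at h2
    simp only [dif_pos hz]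
    exact h2

end Vale.Agent.P272.DEF
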