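import Mathlib

/-!
Contraction mapping with holomorphic dependence on a complex parameter.
-/

open Complex Metric Set Filter Topology

namespace Vale.Agent.P272.DEF

set_option linter.unusedSectionVars false

variable {X : Type*} [NormedAddCommGroup X] [NormedSpace ℂ X]

/-- Picard iterates for `u = g - B u`. -/
noncomputable def it (B : X → X) (g : X) : ℕ → X
  | 0 => 0
  | k + 1 => g - B (it B g k)

/-- The hypotheses on the nonlinear map `B`. -/
structure Contr (B : X → X) (r : ℝ) : Prop where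
  pos : 0 < r
  zero : B 0 = 0
  lip : ∀ u v, ‖u‖ ≤ r → ‖v‖ ≤ r → ‖B u - B v‖ ≤ (1 / 2) * ‖u - v‖

theorem Contr.norm_le {B : X → X} {r : ℝ} (h : Contr B r) {u : X} (hu : ‖u‖ ≤ r) :
    ‖B u‖ ≤ (1 / 2) * ‖u‖ := by
  have := h.lip u 0 hu (by simpa using h.pos.le)
  simpa [h.zero] using this

theorem it_norm {B : X → X} {r : ℝ} (h : Contr B r) {g : X} (hg : ‖g‖ ≤ r / 2) (k : ℕ) :
    ‖it B g k‖ ≤ r := by
  induction k with
  | zero => simpa [it] using h.pos.le
  | succ k ih =>
    have h1 := h.norm_le ih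
    have h2 := norm_sub_le g (B (it B g k))
    simp only [it]
    linarith

theorem it_step {B : X → X} {r : ℝ} (h : Contr B r) {g : X} (hg : ‖g‖ ≤ r / 2) (k : ℕ) :
    dist (it B g k) (it B g (k + 1)) ≤ ‖g‖ * (1 / 2) ^ k := by
  induction k with
  | zero => simp [it, h.zero]
  | succ k ih =>
    rw [dist_eq_norm] at ih ⊢
    have e : it B g (k + 1) - it B g (k + 1 + 1) = -(B (it B g k) - B (it B g (k + 1))) := by
      simp only [it]; abel
    rw [e, norm_neg]
    refine (h.lip _ _ (it_norm h hg k) (it_norm h hg (k + 1))).trans ?_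
    rw [pow_succ]
    nlinarith [norm_nonneg g]

variable [CompleteSpace X]

open Classical in
/-- The solution operator. -/
noncomputable def Sol (B : X → X) (g : X) : X :=
  if h : ∃ a, Tendsto (it B g) atTop (𝓝 a) then h.choose else 0

theorem sol_tendsto {B : X → X} {r : ℝ} (h : Contr B r) {g : X} (hg : ‖g‖ ≤ r / 2) :
    Tendsto (it B g) atTop (𝓝 (Sol B g)) := by
  have hc : CauchySeq (it B g) := cauchySeq_of_le_geometric (1 / 2) ‖g‖ (by norm_num)
    (it_step h hg)
  have hex : ∃ a, Tendsto (it B g) atTop (𝓝 a) := cauchySeq_tendsto_of_complete hc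
  rw [Sol, dif_pos hex]
  exact hex.choose_spec

theorem sol_dist {B : X → X} {r : ℝ} (h : Contr B r) {g : X} (hg : ‖g‖ ≤ r / 2) (k : ℕ) :
    dist (it B g k) (Sol B g) ≤ ‖g‖ * (1 / 2) ^ k / (1 - 1 / 2) :=
  dist_le_of_le_geometric_of_tendsto (1 / 2) ‖g‖ (by norm_num) (it_step h hg)
    (sol_tendsto h hg) k

theorem sol_norm_le {B : X → X} {r : ℝ} (h : Contr B r) {g : X} (hg : ‖g‖ ≤ r / 2) :
    ‖Sol B g‖ ≤ 2 * ‖g‖ := by
  have := sol_dist h hg 0
  simp only [it, dist_zero_left, pow_zero] at this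
  norm_num at this
  linarith

theorem sol_norm_le' {B : X → X} {r : ℝ} (h : Contr B r) {g : X} (hg : ‖g‖ ≤ r / 2) :
    ‖Sol B g‖ ≤ r := by
  have := sol_norm_le h hg
  linarith

theorem sol_eq {B : X → X} {r : ℝ} (h : Contr B r) {g : X} (hg : ‖g‖ ≤ r / 2) :
    Sol B g = g - B (Sol B g) := by
  have h1 := (sol_tendsto h hg).comp (tendsto_add_atTop_nat 1)
  have h2 : Tendsto (fun k => B (it B g k)) atTop (𝓝 (B (Sol B g))) := by
    rw [tendsto_iff_norm_sub_tendsto_zero]
    have h3 := (tendsto_iff_norm_sub_tendsto_zero.1 (sol_tendsto h hg)).const_mul (1 / 2)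
    rw [mul_zero] at h3
    refine squeeze_zero (fun _ => norm_nonneg _) (fun k => ?_) h3
    exact h.lip _ _ (it_norm h hg k) (sol_norm_le' h hg)
  have h4 : Tendsto (fun k => it B g (k + 1)) atTop (𝓝 (g - B (Sol B g))) := by
    simp only [it]
    exact tendsto_const_nhds.sub h2
  exact tendsto_nhds_unique h1 h4

theorem sol_unique {B : X → X} {r : ℝ} (h : Contr B r) {g : X} (hg : ‖g‖ ≤ r / 2) {u : X}
    (hu : ‖u‖ ≤ r) (he : u = g - B u) : u = Sol B g := by
  have h1 := sol_eq h hg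
  have h2 := h.lip u (Sol B g) hu (sol_norm_le' h hg)
  have h3 : u - Sol B g = -(B u - B (Sol B g)) := by
    have h : u - Sol B g = (g - B u) - (g - B (Sol B g)) := by rw [← he, ← h1]
    rw [h]; abel
  have h4 : ‖u - Sol B g‖ ≤ 1 / 2 * ‖u - Sol B g‖ := by
    calc ‖u - Sol B g‖ = ‖B u - B (Sol B g)‖ := by rw [h3, norm_neg]
      _ ≤ _ := h2
  have h5 : ‖u - Sol B g‖ = 0 := by
    have := norm_nonneg (u - Sol B g)
    linarith
  exact sub_eq_zero.1 (norm_eq_zero.1 h5)

theorem sol_lip {B : X → X} {r : ℝ} (h : Contr B r) {g g' : X} (hg : ‖g‖ ≤ r / 2)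
    (hg' : ‖g'‖ ≤ r / 2) : ‖Sol B g - Sol B g'‖ ≤ 2 * ‖g - g'‖ := by
  have h2 := h.lip (Sol B g) (Sol B g') (sol_norm_le' h hg) (sol_norm_le' h hg')
  have h3 : Sol B g - Sol B g' = (g - g') - (B (Sol B g) - B (Sol B g')) := by
    have h : Sol B g - Sol B g' = (g - B (Sol B g)) - (g' - B (Sol B g')) := by
      rw [← sol_eq h hg, ← sol_eq h hg']
    rw [h]; abel
  have h4 := norm_sub_le (g - g') (B (Sol B g) - B (Sol B g'))
  rw [← h3] at h4
  linarith

/-- Holomorphic dependence. -/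
theorem sol_hol {B : X → X} {r : ℝ} (h : Contr B r) {U : Set ℂ} (hU : IsOpen U)
    (hhol : ∀ u : ℂ → X, DifferentiableOn ℂ u U → (∀ s ∈ U, ‖u s‖ ≤ r) →
      DifferentiableOn ℂ (fun s => B (u s)) U)
    {g : ℂ → X} (hg : DifferentiableOn ℂ g U) (hgb : ∀ s ∈ U, ‖g s‖ ≤ r / 2) :
    DifferentiableOn ℂ (fun s => Sol B (g s)) U := by
  have hit : ∀ k, DifferentiableOn ℂ (fun s => it B (g s) k) U := by
    intro k
    induction k with
    | zero => simp [it]
    | succ k ih =>
      simp only [it]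
      exact hg.sub (hhol _ ih (fun s hs => it_norm h (hgb s hs) k))
  have hlim : TendstoLocallyUniformlyOn (fun k s => it B (g s) k) (fun s => Sol B (g s)) atTop
      U := by
    refine TendstoUniformlyOn.tendstoLocallyUniformlyOn ?_
    rw [Metric.tendstoUniformlyOn_iff]
    intro ε hε
    have ht : Tendsto (fun k : ℕ => r / 2 * (1 / 2 : ℝ) ^ k / (1 - 1 / 2)) atTop (𝓝 0) := by
      have := (tendsto_pow_atTop_nhds_zero_of_lt_one (r := (1 / 2 : ℝ)) (by norm_num)
        (by norm_num)).const_mul (r / 2)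
      simpa using this.div_const (1 - 1 / 2)
    filter_upwards [ht.eventually (gt_mem_nhds hε)] with k hk s hs
    rw [dist_comm]
    refine (sol_dist h (hgb s hs) k).trans_lt (lt_of_le_of_lt ?_ hk)
    have := hgb s hs
    gcongr
  exact hlim.differentiableOn (Eventually.of_forall hit) hU

end Vale.Agent.P272.DEF
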