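import Mathlib

/-!
Bounded Gateaux holomorphic maps between complex normed spaces are Fréchet holomorphic and `C¹`;
Osgood's lemma for two groups of variables.
-/

open Complex Metric Set Filter Topology

namespace Vale.Agent.P272.DEF

set_option linter.unusedSectionVars false

variable {X Y : Type*} [NormedAddCommGroup X] [NormedSpace ℂ X] [NormedAddCommGroup Y]
  [NormedSpace ℂ Y] [CompleteSpace Y]

theorem slope1 {f : ℂ → Y} {c : ℂ} {R M : ℝ} (hR : 0 < R)
    (hf : DifferentiableOn ℂ f (ball c R)) (hM : ∀ s ∈ ball c R, ‖f s‖ ≤ M) {s : ℂ}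
    (hs : s ∈ ball c R) : ‖dslope f c s‖ ≤ 2 * M / R := by
  refine Complex.norm_dslope_le_div_of_mapsTo_ball hf ?_ hs
  intro t ht
  rw [mem_closedBall, dist_eq_norm]
  have := norm_sub_le (f t) (f c)
  have := hM t ht
  have := hM c (mem_ball_self hR)
  linarith

theorem slope2 {f : ℂ → Y} {c : ℂ} {R M : ℝ} (hR : 0 < R)
    (hf : DifferentiableOn ℂ f (ball c R)) (hM : ∀ s ∈ ball c R, ‖f s‖ ≤ M) {s : ℂ}
    (hs : s ∈ ball c R) :
    ‖f s - f c - (s - c) • deriv f c‖ ≤ 4 * M / R ^ 2 * ‖s - c‖ ^ 2 := by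
  have hG : DifferentiableOn ℂ (dslope f c) (ball c R) :=
    (Complex.differentiableOn_dslope (isOpen_ball.mem_nhds (mem_ball_self hR))).2 hf
  have hGb : MapsTo (dslope f c) (ball c R) (closedBall (dslope f c c) (4 * M / R)) := by
    intro t ht
    rw [mem_closedBall, dist_eq_norm]
    have h1 := norm_sub_le (dslope f c t) (dslope f c c)
    have h2 := slope1 hR hf hM ht
    have h3 := slope1 hR hf hM (mem_ball_self hR)
    have h4 : 2 * M / R + 2 * M / R = 4 * M / R := by ring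
    linarith
  have h := Complex.norm_dslope_le_div_of_mapsTo_ball hG hGb hs
  have e1 : (s - c) • dslope f c s = f s - f c := sub_smul_dslope f c s
  have e2 : (s - c) • dslope (dslope f c) c s = dslope f c s - dslope f c c :=
    sub_smul_dslope _ c s
  have e3 : dslope f c c = deriv f c := dslope_same f c
  have e4 : f s - f c - (s - c) • deriv f c
      = (s - c) • ((s - c) • dslope (dslope f c) c s) := by
    rw [e2, smul_sub, e1, e3]
  rw [e4, norm_smul, norm_smul]
  calc ‖s - c‖ * (‖s - c‖ * ‖dslope (dslope f c) c s‖)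
      ≤ ‖s - c‖ * (‖s - c‖ * (4 * M / R / R)) := by gcongr
    _ = _ := by field_simp

/-- bounded and Gateaux holomorphic -/
structure GH (f : X → Y) (U : Set X) (M : ℝ) : Prop where
  bd : ∀ x ∈ U, ‖f x‖ ≤ M
  hol : ∀ x ∈ U, ∀ h : X, DifferentiableAt ℂ (fun t : ℂ => f (x + t • h)) 0

/-- Gateaux derivative -/
noncomputable def gd (f : X → Y) (x h : X) : Y := deriv (fun t : ℂ => f (x + t • h)) 0

theorem gd_zero (f : X → Y) (x : X) : gd f x 0 = 0 := by simp [gd]

theorem gd_eq {f : X → Y} {x : X} {L : X →L[ℂ] Y} (h : HasFDerivAt f L x) (v : X) :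
    gd f x v = L v := by
  have h1 : HasFDerivAt f L (x + (0:ℂ) • v) := by simpa using h
  have h2 : HasDerivAt (fun t : ℂ => x + t • v) v 0 := by
    have := ((hasDerivAt_id (0:ℂ)).smul_const v).const_add x
    simpa using this
  exact (h1.comp_hasDerivAt (0:ℂ) h2).deriv

namespace GH

variable {f : X → Y} {U : Set X} {M : ℝ}

theorem mono (hf : GH f U M) {V : Set X} (hV : V ⊆ U) : GH f V M :=
  ⟨fun x hx => hf.bd x (hV hx), fun x hx => hf.hol x (hV hx)⟩

theorem of_diff (hU : IsOpen U) (hd : DifferentiableOn ℂ f U) (hM : ∀ x ∈ U, ‖f x‖ ≤ M) :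
    GH f U M := by
  refine ⟨hM, fun x hx h => ?_⟩
  have h1 : DifferentiableAt ℂ f (x + (0:ℂ) • h) := by
    simpa using (hd x hx).differentiableAt (hU.mem_nhds hx)
  exact h1.comp (0:ℂ) (by fun_prop)

theorem mem {x h : X} {R : ℝ} (hU : ball x R ⊆ U) (hne : h ≠ 0) {t : ℂ}
    (ht : t ∈ ball (0:ℂ) (R / ‖h‖)) : x + t • h ∈ U := by
  apply hU
  rw [mem_ball_zero_iff] at ht
  rw [mem_ball, dist_eq_norm, add_sub_cancel_left, norm_smul]
  have : 0 < ‖h‖ := norm_pos_iff.2 hne
  rwa [lt_div_iff₀ this] at ht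

theorem slice (hf : GH f U M) {x : X} {R : ℝ} (hU : ball x R ⊆ U) {h : X} (hne : h ≠ 0) :
    DifferentiableOn ℂ (fun t : ℂ => f (x + t • h)) (ball 0 (R / ‖h‖)) := by
  intro t ht
  have h1 := hf.hol _ (mem hU hne ht) h
  have h2 : (fun u : ℂ => f (x + u • h))
      = (fun u : ℂ => f (x + t • h + u • h)) ∘ (fun u => u - t) := by
    funext u
    simp only [Function.comp]
    congr 1
    module
  have h3 : DifferentiableAt ℂ (fun u : ℂ => f (x + u • h)) t := by
    rw [h2]
    refine DifferentiableAt.comp t ?_ (by fun_prop)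
    rw [sub_self]
    exact h1
  exact h3.differentiableWithinAt

variable (hf : GH f U M) {x : X} {R : ℝ} (hR : 0 < R) (hU : ball x R ⊆ U)

include hf hR hU

theorem M_nonneg : 0 ≤ M := (norm_nonneg _).trans (hf.bd x (hU (mem_ball_self hR)))

theorem gd_bd (h : X) : ‖gd f x h‖ ≤ 2 * M / R * ‖h‖ := by
  have hM := hf.M_nonneg hR hU
  rcases eq_or_ne h 0 with rfl | hne
  · simp [gd_zero]
  have hn : 0 < ‖h‖ := norm_pos_iff.2 hne
  have h1 := slope1 (f := fun t : ℂ => f (x + t • h)) (c := 0) (R := R / ‖h‖) (M := M)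
    (by positivity) (hf.slice hU hne) (fun t ht => hf.bd _ (mem hU hne ht))
    (mem_ball_self (by positivity))
  rw [dslope_same] at h1
  refine h1.trans (le_of_eq ?_)
  field_simp

theorem lip {h : X} (hh : ‖h‖ < R) : ‖f (x + h) - f x‖ ≤ 2 * M / R * ‖h‖ := by
  have hM := hf.M_nonneg hR hU
  rcases eq_or_ne h 0 with rfl | hne
  · simp
  have hn : 0 < ‖h‖ := norm_pos_iff.2 hne
  have h0 : (1:ℂ) ∈ ball (0:ℂ) (R / ‖h‖) := by
    rw [mem_ball_zero_iff, norm_one, lt_div_iff₀ hn, one_mul]; exact hh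
  have h1 := slope1 (f := fun t : ℂ => f (x + t • h)) (c := 0) (R := R / ‖h‖) (M := M)
    (by positivity) (hf.slice hU hne) (fun t ht => hf.bd _ (mem hU hne ht)) h0
  have h2 := sub_smul_dslope (fun t : ℂ => f (x + t • h)) 0 1
  simp only [sub_zero, one_smul, zero_smul, add_zero] at h2
  rw [← h2]
  refine h1.trans (le_of_eq ?_)
  field_simp

theorem rem {h : X} (hh : ‖h‖ < R) :
    ‖f (x + h) - f x - gd f x h‖ ≤ 4 * M / R ^ 2 * ‖h‖ ^ 2 := by
  have hM := hf.M_nonneg hR hU
  rcases eq_or_ne h 0 with rfl | hne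
  · simp [gd_zero]
  have hn : 0 < ‖h‖ := norm_pos_iff.2 hne
  have h0 : (1:ℂ) ∈ ball (0:ℂ) (R / ‖h‖) := by
    rw [mem_ball_zero_iff, norm_one, lt_div_iff₀ hn, one_mul]; exact hh
  have h1 := slope2 (f := fun t : ℂ => f (x + t • h)) (c := 0) (R := R / ‖h‖) (M := M)
    (by positivity) (hf.slice hU hne) (fun t ht => hf.bd _ (mem hU hne ht)) h0
  simp only [sub_zero, one_smul, zero_smul, add_zero, norm_one, one_pow, mul_one] at h1
  refine h1.trans (le_of_eq ?_)
  field_simp

theorem gd_smul (c : ℂ) (h : X) : gd f x (c • h) = c • gd f x h := by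
  have h1 := (hf.hol x (hU (mem_ball_self hR)) h).hasDerivAt
  have h2 : HasDerivAt (fun t : ℂ => t * c) c 0 := by
    simpa using (hasDerivAt_id (0:ℂ)).mul_const c
  have h1' : HasDerivAt (fun t : ℂ => f (x + t • h)) (gd f x h) ((0:ℂ) * c) := by
    rw [zero_mul]; exact h1
  have h3 := h1'.scomp (0:ℂ) h2
  have h4 : (fun t : ℂ => f (x + t • (c • h))) = (fun t : ℂ => f (x + t • h)) ∘ (fun t => t * c) := by
    funext t
    simp only [Function.comp, smul_smul]
  rw [gd, h4]
  exact h3.deriv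

theorem gd_diff {k : X} (hk : ‖k‖ < R / 2) (h : X) :
    ‖gd f (x + k) h - gd f x h‖ ≤ 16 * M / R ^ 2 * ‖k‖ * ‖h‖ := by
  have hM := hf.M_nonneg hR hU
  have hsub : ∀ y ∈ ball x (R / 2), ball y (R / 2) ⊆ U := by
    intro y hy
    refine Subset.trans ?_ hU
    intro z hz
    rw [mem_ball] at hy hz ⊢
    have := dist_triangle z y x
    linarith
  have hphi : GH (fun y => f (y + k) - f y) (ball x (R / 2)) (4 * M / R * ‖k‖) := by
    constructor
    · intro y hy
      refine (hf.lip (by positivity) (hsub y hy) hk).trans (le_of_eq ?_)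
      field_simp; ring
    · intro y hy v
      have hy1 : y ∈ U := hsub y hy (mem_ball_self (by positivity))
      have hy2 : y + k ∈ U := by
        apply hsub y hy
        rw [mem_ball, dist_eq_norm, add_sub_cancel_left]; exact hk
      have h1 := hf.hol _ hy1 v
      have h2 := hf.hol _ hy2 v
      have h3 : (fun t : ℂ => f (y + t • v + k) - f (y + t • v))
          = fun t : ℂ => f (y + k + t • v) - f (y + t • v) := by
        funext t
        rw [add_right_comm]
      rw [h3]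
      exact h2.sub h1
  have h1 := hphi.gd_bd (x := x) (R := R / 2) (by positivity) Subset.rfl h
  have h2 : gd (fun y => f (y + k) - f y) x h = gd f (x + k) h - gd f x h := by
    have hx1 : x ∈ U := hU (mem_ball_self hR)
    have hx2 : x + k ∈ U := by
      apply hU
      rw [mem_ball, dist_eq_norm, add_sub_cancel_left]; linarith
    have e1 := (hf.hol _ hx1 h).hasDerivAt
    have e2 := (hf.hol _ hx2 h).hasDerivAt
    have h3 : (fun t : ℂ => f (x + t • h + k) - f (x + t • h))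
        = fun t : ℂ => f (x + k + t • h) - f (x + t • h) := by
      funext t
      rw [add_right_comm]
    rw [gd, h3]
    exact (e2.sub e1).deriv
  rw [← h2]
  refine h1.trans (le_of_eq ?_)
  field_simp; ring

theorem gd_add (h k : X) : gd f x (h + k) = gd f x h + gd f x k := by
  have hM := hf.M_nonneg hR hU
  -- the defect is `O(t)`
  set Δ := gd f x (h + k) - gd f x h - gd f x k with hΔ
  set C : ℝ := 4 * M / R ^ 2 * ‖h + k‖ ^ 2 + 4 * M / (R / 2) ^ 2 * ‖k‖ ^ 2
    + 4 * M / R ^ 2 * ‖h‖ ^ 2 + 16 * M / R ^ 2 * ‖h‖ * ‖k‖ with hC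
  have hC0 : 0 ≤ C := by positivity
  have key : ∀ t : ℝ, 0 < t → t * (‖h‖ + ‖k‖) < R / 2 → ‖Δ‖ ≤ C * t := by
    intro t ht htR
    have hth : ‖(t:ℂ) • h‖ = t * ‖h‖ := by
      rw [norm_smul, Complex.norm_real, Real.norm_of_nonneg ht.le]
    have htk : ‖(t:ℂ) • k‖ = t * ‖k‖ := by
      rw [norm_smul, Complex.norm_real, Real.norm_of_nonneg ht.le]
    have hthk : ‖(t:ℂ) • (h + k)‖ = t * ‖h + k‖ := by
      rw [norm_smul, Complex.norm_real, Real.norm_of_nonneg ht.le]
    have a1 : t * ‖h‖ < R / 2 := by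
      have := mul_nonneg ht.le (norm_nonneg k); linarith
    have a2 : t * ‖k‖ < R / 2 := by
      have := mul_nonneg ht.le (norm_nonneg h); linarith
    have a3 : t * ‖h + k‖ < R / 2 :=
      (mul_le_mul_of_nonneg_left (norm_add_le h k) ht.le).trans_lt htR
    have r1 := hf.rem hR hU (h := (t:ℂ) • (h + k)) (by rw [hthk]; linarith)
    have hU2 : ball (x + (t:ℂ) • h) (R / 2) ⊆ U := by
      refine Subset.trans ?_ hU
      intro z hz
      rw [mem_ball] at hz ⊢
      have := dist_triangle z (x + (t:ℂ) • h) x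
      have e : dist (x + (t:ℂ) • h) x = t * ‖h‖ := by
        rw [dist_eq_norm, add_sub_cancel_left, hth]
      linarith
    have r2 := hf.rem (x := x + (t:ℂ) • h) (R := R / 2) (by positivity) hU2 (h := (t:ℂ) • k)
      (by rw [htk]; exact a2)
    have r3 := hf.rem hR hU (h := (t:ℂ) • h) (by rw [hth]; linarith)
    have r4 := hf.gd_diff hR hU (k := (t:ℂ) • h) (by rw [hth]; exact a1) ((t:ℂ) • k)
    rw [hf.gd_smul hR hU] at r1 r3
    rw [hf.gd_smul hR hU, hf.gd_smul (R := R / 2) (by positivity) hU2] at r4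
    rw [hf.gd_smul (R := R / 2) (by positivity) hU2] at r2
    rw [hthk] at r1
    rw [htk] at r2
    rw [hth] at r3
    rw [hth, htk] at r4
    have e : (t:ℂ) • Δ = -(f (x + (t:ℂ) • (h + k)) - f x - (t:ℂ) • gd f x (h + k))
        + (f (x + (t:ℂ) • h + (t:ℂ) • k) - f (x + (t:ℂ) • h)
            - (t:ℂ) • gd f (x + (t:ℂ) • h) k)
        + (f (x + (t:ℂ) • h) - f x - (t:ℂ) • gd f x h)
        + ((t:ℂ) • gd f (x + (t:ℂ) • h) k - (t:ℂ) • gd f x k) := by
      have e0 : x + (t:ℂ) • (h + k) = x + (t:ℂ) • h + (t:ℂ) • k := by module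
      rw [e0, hΔ]
      module
    have e2 : t * ‖Δ‖ ≤ t * (C * t) := by
      calc t * ‖Δ‖ = ‖(t:ℂ) • Δ‖ := by
            rw [norm_smul, Complex.norm_real, Real.norm_of_nonneg ht.le]
        _ ≤ 4 * M / R ^ 2 * (t * ‖h + k‖) ^ 2 + 4 * M / (R / 2) ^ 2 * (t * ‖k‖) ^ 2
            + 4 * M / R ^ 2 * (t * ‖h‖) ^ 2 + 16 * M / R ^ 2 * (t * ‖h‖) * (t * ‖k‖) := by
            rw [e]
            refine (norm_add_le _ _).trans (add_le_add ((norm_add_le _ _).trans (add_le_add
              ((norm_add_le _ _).trans (add_le_add ?_ r2)) r3)) r4)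
            rw [norm_neg]
            exact r1
        _ = _ := by rw [hC]; ring
    exact le_of_mul_le_mul_left e2 ht
  have hlim : Tendsto (fun t : ℝ => C * t) (𝓝[>] 0) (𝓝 0) := by
    have : Tendsto (fun t : ℝ => C * t) (𝓝 0) (𝓝 (C * 0)) := tendsto_id.const_mul C
    rw [mul_zero] at this
    exact this.mono_left nhdsWithin_le_nhds
  have hev : ∀ᶠ t in 𝓝[>] (0:ℝ), ‖Δ‖ ≤ C * t := by
    have h1 : ∀ᶠ t in 𝓝[>] (0:ℝ), 0 < t := eventually_mem_nhdsWithin
    have h2 : ∀ᶠ t in 𝓝[>] (0:ℝ), t * (‖h‖ + ‖k‖) < R / 2 := by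
      have : Tendsto (fun t : ℝ => t * (‖h‖ + ‖k‖)) (𝓝 0) (𝓝 (0 * (‖h‖ + ‖k‖))) :=
        tendsto_id.mul_const _
      rw [zero_mul] at this
      exact (this.mono_left nhdsWithin_le_nhds).eventually (gt_mem_nhds (by positivity))
    filter_upwards [h1, h2] with t ht1 ht2 using key t ht1 ht2
  have h0 : ‖Δ‖ ≤ 0 := ge_of_tendsto hlim hev
  have h1 : Δ = 0 := norm_le_zero_iff.1 h0
  rw [hΔ, sub_sub, sub_eq_zero] at h1
  exact h1

/-- A bounded Gateaux holomorphic map is Fréchet differentiable. -/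
theorem exists_hasFDerivAt : ∃ L : X →L[ℂ] Y, HasFDerivAt f L x ∧ (∀ h, L h = gd f x h) ∧
    ‖L‖ ≤ 2 * M / R := by
  have hM := hf.M_nonneg hR hU
  refine ⟨LinearMap.mkContinuous ⟨⟨fun h => gd f x h, fun h k => hf.gd_add hR hU h k⟩,
    fun c h => hf.gd_smul hR hU c h⟩ (2 * M / R) (fun h => hf.gd_bd hR hU h), ?_, fun h => rfl,
    LinearMap.mkContinuous_norm_le _ (by positivity) _⟩
  rw [hasFDerivAt_iff_isLittleO_nhds_zero]
  have h1 : (fun h : X => f (x + h) - f x - (LinearMap.mkContinuous ⟨⟨fun h => gd f x h,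
      fun h k => hf.gd_add hR hU h k⟩,
      fun c h => hf.gd_smul hR hU c h⟩ (2 * M / R) (fun h => hf.gd_bd hR hU h) : X →L[ℂ] Y) h)
      =O[𝓝 0] fun h : X => ‖h‖ ^ 2 := by
    refine Asymptotics.IsBigO.of_bound (4 * M / R ^ 2) ?_
    filter_upwards [isOpen_ball.mem_nhds (mem_ball_self (x := (0:X)) hR)] with h hh
    rw [mem_ball_zero_iff] at hh
    rw [norm_pow, norm_norm]
    exact hf.rem hR hU hh
  refine h1.trans_isLittleO ?_
  exact Asymptotics.isLittleO_norm_pow_id one_lt_two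

end GH

/-- **Bounded Gateaux holomorphic maps are holomorphic.** -/
theorem GH.differentiableOn {f : X → Y} {U : Set X} {M : ℝ} (hf : GH f U M) (hU : IsOpen U) :
    DifferentiableOn ℂ f U := by
  intro x hx
  obtain ⟨R, hR, hb⟩ := Metric.isOpen_iff.1 hU x hx
  obtain ⟨L, hL, _⟩ := hf.exists_hasFDerivAt hR hb
  exact hL.differentiableAt.differentiableWithinAt

theorem GH.fderiv_eq {f : X → Y} {U : Set X} {M : ℝ} (hf : GH f U M) (hU : IsOpen U) {x : X}
    (hx : x ∈ U) (h : X) : fderiv ℂ f x h = gd f x h := by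
  have := (hf.differentiableOn hU x hx).differentiableAt (hU.mem_nhds hx)
  exact (gd_eq this.hasFDerivAt h).symm

/-- the derivative is locally Lipschitz -/
theorem GH.fderiv_lip {f : X → Y} {U : Set X} {M : ℝ} (hf : GH f U M) (hU : IsOpen U) {x : X}
    {R : ℝ} (hR : 0 < R) (hb : ball x R ⊆ U) {k : X} (hk : ‖k‖ < R / 2) :
    ‖fderiv ℂ f (x + k) - fderiv ℂ f x‖ ≤ 16 * M / R ^ 2 * ‖k‖ := by
  have hM := hf.M_nonneg hR hb
  have hxk : x + k ∈ U := by
    apply hb
    rw [mem_ball, dist_eq_norm, add_sub_cancel_left]; linarith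
  refine ContinuousLinearMap.opNorm_le_bound _ (by positivity) ?_
  intro h
  have e : (fderiv ℂ f (x + k) - fderiv ℂ f x) h = gd f (x + k) h - gd f x h := by
    rw [← hf.fderiv_eq hU hxk, ← hf.fderiv_eq hU (hb (mem_ball_self hR))]
    rfl
  rw [e]
  exact hf.gd_diff hR hb hk h

theorem GH.continuousOn_fderiv {f : X → Y} {U : Set X} {M : ℝ} (hf : GH f U M) (hU : IsOpen U) :
    ContinuousOn (fderiv ℂ f) U := by
  intro x hx
  obtain ⟨R, hR, hb⟩ := Metric.isOpen_iff.1 hU x hx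
  refine ContinuousAt.continuousWithinAt ?_
  rw [ContinuousAt, tendsto_iff_norm_sub_tendsto_zero]
  have hM := hf.M_nonneg hR hb
  have h1 : ∀ᶠ y in 𝓝 x, ‖fderiv ℂ f y - fderiv ℂ f x‖ ≤ 16 * M / R ^ 2 * ‖y - x‖ := by
    filter_upwards [ball_mem_nhds x (show (0:ℝ) < R / 2 by positivity)] with y hy
    rw [mem_ball, dist_eq_norm] at hy
    have := hf.fderiv_lip hU hR hb hy
    simpa using this
  have h2 : Tendsto (fun y => 16 * M / R ^ 2 * ‖y - x‖) (𝓝 x) (𝓝 0) := by
    have : Continuous fun y => 16 * M / R ^ 2 * ‖y - x‖ := by fun_prop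
    simpa using this.tendsto x
  exact squeeze_zero' (Eventually.of_forall fun _ => norm_nonneg _) h1 h2

theorem GH.contDiffOn_one {f : X → Y} {U : Set X} {M : ℝ} (hf : GH f U M) (hU : IsOpen U) :
    ContDiffOn ℂ 1 f U := by
  have h := contDiffOn_succ_iff_fderiv_of_isOpen (𝕜 := ℂ) (f := f) (n := 0) hU
  rw [zero_add] at h
  rw [h]
  refine ⟨hf.differentiableOn hU, by simp, ?_⟩
  rw [contDiffOn_zero]
  exact hf.continuousOn_fderiv hU

section Osgood

variable {Z : Type*} [NormedAddCommGroup Z] [NormedSpace ℂ Z]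

/-- **Osgood's lemma** for two groups of variables. -/
theorem osgood {f : Z × X → Y} {z : Z} {x : X} {R M : ℝ} (hR : 0 < R)
    (hM : ∀ z' ∈ ball z R, ∀ x' ∈ ball x R, ‖f (z', x')‖ ≤ M)
    (h1 : ∀ x' ∈ ball x R, DifferentiableOn ℂ (fun z' => f (z', x')) (ball z R))
    (h2 : ∀ z' ∈ ball z R, DifferentiableOn ℂ (fun x' => f (z', x')) (ball x R)) :
    HasFDerivAt f ((fderiv ℂ (fun z' => f (z', x)) z).comp (ContinuousLinearMap.fst ℂ Z X) +
      (fderiv ℂ (fun x' => f (z, x')) x).comp (ContinuousLinearMap.snd ℂ Z X)) (z, x) := by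
  have hzz := mem_ball_self (x := z) hR
  have hxx := mem_ball_self (x := x) hR
  have hM0 : 0 ≤ M := (norm_nonneg _).trans (hM z hzz x hxx)
  have g1 : ∀ x' ∈ ball x R, GH (fun z' => f (z', x')) (ball z R) M := fun x' hx' =>
    GH.of_diff isOpen_ball (h1 x' hx') fun z' hz' => hM z' hz' x' hx'
  have g2 : ∀ z' ∈ ball z R, GH (fun x' => f (z', x')) (ball x R) M := fun z' hz' =>
    GH.of_diff isOpen_ball (h2 z' hz') fun x' hx' => hM z' hz' x' hx'
  rw [hasFDerivAt_iff_isLittleO_nhds_zero]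
  have hO : (fun p : Z × X => f ((z, x) + p) - f (z, x) -
      ((fderiv ℂ (fun z' => f (z', x)) z).comp (ContinuousLinearMap.fst ℂ Z X) +
      (fderiv ℂ (fun x' => f (z, x')) x).comp (ContinuousLinearMap.snd ℂ Z X)) p)
      =O[𝓝 0] fun p : Z × X => ‖p‖ ^ 2 := by
    refine Asymptotics.IsBigO.of_bound
      (4 * M / R ^ 2 + 4 * M / R ^ 2 + 2 * (2 * M / (R / 2)) / (R / 2)) ?_
    filter_upwards [isOpen_ball.mem_nhds (mem_ball_self (x := (0 : Z × X))
      (show (0:ℝ) < R / 2 by positivity))] with p hp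
    obtain ⟨h, k⟩ := p
    rw [mem_ball_zero_iff] at hp
    have hh : ‖h‖ ≤ ‖(h, k)‖ := norm_fst_le (h, k)
    have hk : ‖k‖ ≤ ‖(h, k)‖ := norm_snd_le (h, k)
    have hh2 : ‖h‖ < R / 2 := hh.trans_lt hp
    have hk2 : ‖k‖ < R / 2 := hk.trans_lt hp
    have hzh : z + h ∈ ball z R := by
      rw [mem_ball, dist_eq_norm, add_sub_cancel_left]; linarith
    have r1 := (g2 (z + h) hzh).rem hR Subset.rfl (h := k) (by linarith)
    have r3 := (g1 x hxx).rem hR Subset.rfl (h := h) (by linarith)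
    -- the difference of the partial derivatives in `x`
    have g3 : GH (fun x' => f (z + h, x') - f (z, x')) (ball x (R / 2))
        (2 * M / (R / 2) * ‖h‖) := by
      refine GH.of_diff isOpen_ball ?_ ?_
      · exact ((h2 _ hzh).sub (h2 _ hzz)).mono (ball_subset_ball (by linarith))
      · intro x' hx'
        have := (g1 x' (ball_subset_ball (by linarith) hx')).mono
          (ball_subset_ball (show R / 2 ≤ R by linarith))
        exact this.lip (by positivity) Subset.rfl hh2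
    have r2 := g3.gd_bd (by positivity) Subset.rfl k
    have e2 : gd (fun x' => f (z + h, x') - f (z, x')) x k
        = gd (fun x' => f (z + h, x')) x k - gd (fun x' => f (z, x')) x k := by
      have a1 := ((g2 _ hzh).hol x hxx k).hasDerivAt
      have a2 := ((g2 _ hzz).hol x hxx k).hasDerivAt
      exact (a1.sub a2).deriv
    have d1 : fderiv ℂ (fun z' => f (z', x)) z h = gd (fun z' => f (z', x)) z h :=
      (g1 x hxx).fderiv_eq isOpen_ball hzz h
    have d2 : fderiv ℂ (fun x' => f (z, x')) x k = gd (fun x' => f (z, x')) x k :=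
      (g2 z hzz).fderiv_eq isOpen_ball hxx k
    have e : f ((z, x) + (h, k)) - f (z, x) -
      ((fderiv ℂ (fun z' => f (z', x)) z).comp (ContinuousLinearMap.fst ℂ Z X) +
      (fderiv ℂ (fun x' => f (z, x')) x).comp (ContinuousLinearMap.snd ℂ Z X)) (h, k)
      = (f (z + h, x + k) - f (z + h, x) - gd (fun x' => f (z + h, x')) x k)
        + (gd (fun x' => f (z + h, x')) x k - gd (fun x' => f (z, x')) x k)
        + (f (z + h, x) - f (z, x) - gd (fun z' => f (z', x)) z h) := by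
      change f (z + h, x + k) - f (z, x) - (fderiv ℂ (fun z' => f (z', x)) z h
        + fderiv ℂ (fun x' => f (z, x')) x k) = _
      rw [d1, d2]
      abel
    rw [e, norm_pow, norm_norm]
    rw [e2] at r2
    set N := ‖(h, k)‖ with hN
    have hN0 : 0 ≤ N := norm_nonneg _
    calc _ ≤ 4 * M / R ^ 2 * ‖k‖ ^ 2 + 2 * (2 * M / (R / 2) * ‖h‖) / (R / 2) * ‖k‖
          + 4 * M / R ^ 2 * ‖h‖ ^ 2 :=
          (norm_add_le _ _).trans (add_le_add ((norm_add_le _ _).trans (add_le_add r1 r2)) r3)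
      _ ≤ 4 * M / R ^ 2 * N ^ 2 + 2 * (2 * M / (R / 2) * N) / (R / 2) * N
          + 4 * M / R ^ 2 * N ^ 2 := by gcongr
      _ = _ := by ring
  refine hO.trans_isLittleO ?_
  exact Asymptotics.isLittleO_norm_pow_id one_lt_two

/-- Osgood's lemma, continuous form. -/
theorem osgood_cont {f : Z × X → Y} {U : Set (Z × X)} (hU : IsOpen U) (hc : ContinuousOn f U)
    (h1 : ∀ p ∈ U, DifferentiableAt ℂ (fun z' => f (z', p.2)) p.1)
    (h2 : ∀ p ∈ U, DifferentiableAt ℂ (fun x' => f (p.1, x')) p.2) :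
    DifferentiableOn ℂ f U := by
  rintro ⟨z, x⟩ hp
  have hc' : ContinuousAt f (z, x) := hc.continuousAt (hU.mem_nhds hp)
  have hb : ∀ᶠ p in 𝓝 (z, x), p ∈ U ∧ ‖f p‖ < ‖f (z, x)‖ + 1 :=
    (hU.eventually_mem hp).and (hc'.norm.eventually (gt_mem_nhds (by linarith)))
  obtain ⟨R, hR, hball⟩ := Metric.eventually_nhds_iff_ball.1 hb
  have hsub : ∀ z' ∈ ball z R, ∀ x' ∈ ball x R, (z', x') ∈ ball (z, x) R := by
    intro z' hz' x' hx'
    rw [← ball_prod_same]
    exact ⟨hz', hx'⟩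
  refine (osgood (M := ‖f (z, x)‖ + 1) hR ?_ ?_ ?_).differentiableAt.differentiableWithinAt
  · intro z' hz' x' hx'
    exact (hball _ (hsub z' hz' x' hx')).2.le
  · intro x' hx' z' hz'
    exact (h1 _ (hball _ (hsub z' hz' x' hx')).1).differentiableWithinAt
  · intro z' hz' x' hx'
    exact (h2 _ (hball _ (hsub z' hz' x' hx')).1).differentiableWithinAt

end Osgood

end Vale.Agent.P272.DEF
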