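import Mathlib

/-!
Banach-valued holomorphy from pointwise holomorphy (values in bounded continuous functions).
-/

open Complex Metric Set Filter Topology MeasureTheory
open scoped BoundedContinuousFunction

namespace Vale.Agent.P272.DEF

variable {E : Type*} [NormedAddCommGroup E] [NormedSpace ℂ E]

/-- Cauchy estimate: a bounded holomorphic function is Lipschitz on the half ball. -/
theorem lip_half {f : ℂ → E} {c : ℂ} {R M : ℝ} (hR : 0 < R)
    (hf : DifferentiableOn ℂ f (ball c R)) (hM : ∀ s ∈ ball c R, ‖f s‖ ≤ M)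
    {s t : ℂ} (hs : s ∈ ball c (R / 2)) (ht : t ∈ ball c (R / 2)) :
    ‖f s - f t‖ ≤ (M / (R / 4)) * ‖s - t‖ := by
  have hder : ∀ x ∈ ball c (R / 2), ‖deriv f x‖ ≤ M / (R / 4) := by
    intro x hx
    have hsub : closedBall x (R / 4) ⊆ ball c R := by
      intro y hy
      rw [mem_closedBall] at hy
      rw [mem_ball] at hx ⊢
      have := dist_triangle y x c
      linarith
    have hd : DiffContOnCl ℂ f (ball x (R / 4)) := by
      refine (hf.mono ?_).diffContOnCl
      refine (closure_ball_subset_closedBall).trans hsub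
    refine Complex.norm_deriv_le_of_forall_mem_sphere_norm_le (by linarith) hd ?_
    intro z hz
    exact hM z (hsub (sphere_subset_closedBall hz))
  refine (convex_ball c (R / 2)).norm_image_sub_le_of_norm_deriv_le (𝕜 := ℂ) ?_ hder ht hs
  intro x hx
  exact (hf x (ball_subset_ball (by linarith) hx)).differentiableAt
    (isOpen_ball.mem_nhds (ball_subset_ball (by linarith) hx))

variable [CompleteSpace E] {D : Type*} [TopologicalSpace D]

/-- A locally bounded family of bounded continuous functions which is pointwise holomorphic in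
the parameter is holomorphic as a Banach valued function. -/
theorem differentiableOn_bcf {U : Set ℂ} (hU : IsOpen U) {g : ℂ → D →ᵇ E} {M : ℝ}
    (hM : ∀ s ∈ U, ‖g s‖ ≤ M) (hg : ∀ z, DifferentiableOn ℂ (fun s => g s z) U) :
    DifferentiableOn ℂ g U := by
  intro s0 hs0
  obtain ⟨R, hR, hball⟩ := Metric.isOpen_iff.1 hU s0 hs0
  -- Lipschitz
  have hlip : ∀ s ∈ ball s0 (R / 2), ∀ t ∈ ball s0 (R / 2),
      ‖g s - g t‖ ≤ (M / (R / 4)) * ‖s - t‖ := by
    intro s hs t ht
    have hMnn : 0 ≤ M := (norm_nonneg _).trans (hM s0 hs0)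
    refine (BoundedContinuousFunction.norm_le (by positivity)).2 ?_
    intro z
    have := lip_half (f := fun s => g s z) hR ((hg z).mono hball)
      (fun s hs => ((g s).norm_coe_le_norm z).trans (hM s (hball hs))) hs ht
    simpa using this
  have hcont : ContinuousOn g (ball s0 (R / 2)) := by
    rw [Metric.continuousOn_iff]
    intro t ht ε hε
    have hMnn : 0 ≤ M := (norm_nonneg _).trans (hM s0 hs0)
    refine ⟨ε / (M / (R / 4) + 1), by positivity, ?_⟩
    intro s hs hst
    rw [dist_eq_norm] at hst ⊢
    refine (hlip s hs t ht).trans_lt ?_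
    have hpos : 0 < M / (R / 4) + 1 := by positivity
    rw [lt_div_iff₀ hpos] at hst
    have : 0 ≤ ‖s - t‖ := norm_nonneg _
    nlinarith
  set r : NNReal := ⟨R / 4, by positivity⟩ with hr
  have hr0 : (0 : ℝ) < r := by
    rw [hr]; change 0 < R / 4; positivity
  have hrv : (r : ℝ) = R / 4 := rfl
  have hsub : closedBall s0 (r : ℝ) ⊆ ball s0 (R / 2) := by
    intro y hy
    rw [mem_closedBall, hrv] at hy
    rw [mem_ball]; linarith
  have hci : CircleIntegrable g s0 r := by
    refine ContinuousOn.circleIntegrable hr0.le ?_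
    exact hcont.mono (sphere_subset_closedBall.trans hsub)
  have hps := hasFPowerSeriesOn_cauchy_integral (f := g) (c := s0) (R := r) hci
    (by exact_mod_cast hr0)
  have heq : ∀ w ∈ ball s0 (r : ℝ),
      (2 * Real.pi * I : ℂ)⁻¹ • (∮ z in C(s0, r), (z - w)⁻¹ • g z) = g w := by
    intro w hw
    ext z
    have hcomm : (∮ x in C(s0, r), (x - w)⁻¹ • g x) z
        = ∮ x in C(s0, r), (x - w)⁻¹ • (g x z) := by
      have hci2 : CircleIntegrable (fun x => (x - w)⁻¹ • g x) s0 r := by
        refine ContinuousOn.circleIntegrable hr0.le ?_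
        have hcg : ContinuousOn g (sphere s0 (r : ℝ)) :=
          hcont.mono (sphere_subset_closedBall.trans hsub)
        have hci : ContinuousOn (fun x : ℂ => (x - w)⁻¹) (sphere s0 (r : ℝ)) := ?_
        · exact hci.smul hcg
        refine ContinuousOn.inv₀ (by fun_prop) ?_
        intro x hx h0
        rw [sub_eq_zero] at h0
        rw [h0] at hx
        rw [mem_sphere] at hx
        rw [mem_ball] at hw
        linarith
      have := (BoundedContinuousFunction.evalCLM ℂ z : (D →ᵇ E) →L[ℂ] E).intervalIntegral_comp_comm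
        (a := 0) (b := 2 * Real.pi) (μ := volume)
        (f := fun θ => deriv (circleMap s0 r) θ • ((circleMap s0 r θ - w)⁻¹ • g (circleMap s0 r θ)))
        (by
          have := hci2.out
          simpa using this)
      simp only [circleIntegral]
      rw [show (∫ θ in (0:ℝ)..2 * Real.pi, deriv (circleMap s0 r) θ •
          ((circleMap s0 r θ - w)⁻¹ • g (circleMap s0 r θ))) z
          = (BoundedContinuousFunction.evalCLM ℂ z : (D →ᵇ E) →L[ℂ] E)
            (∫ θ in (0:ℝ)..2 * Real.pi, deriv (circleMap s0 r) θ •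
          ((circleMap s0 r θ - w)⁻¹ • g (circleMap s0 r θ))) from rfl, ← this]
      rfl
    rw [BoundedContinuousFunction.coe_smul]
    change (2 * Real.pi * I : ℂ)⁻¹ • (∮ x in C(s0, r), (x - w)⁻¹ • g x) z = g w z
    rw [hcomm]
    have hd : DiffContOnCl ℂ (fun s => g s z) (ball s0 (r : ℝ)) := by
      refine ((hg z).mono ?_).diffContOnCl
      exact closure_ball_subset_closedBall.trans (hsub.trans
        ((ball_subset_ball (by linarith)).trans hball))
    rw [hd.circleIntegral_sub_inv_smul hw]
    rw [smul_smul, inv_mul_cancel₀ Complex.two_pi_I_ne_zero, one_smul]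
  have hd2 : DifferentiableAt ℂ (fun w => (2 * Real.pi * I : ℂ)⁻¹ •
      (∮ z in C(s0, r), (z - w)⁻¹ • g z)) s0 := hps.analyticAt.differentiableAt
  refine (hd2.congr_of_eventuallyEq ?_).differentiableWithinAt
  filter_upwards [isOpen_ball.mem_nhds (mem_ball_self hr0)] with w hw
  exact (heq w hw).symm

end Vale.Agent.P272.DEF
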