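import Vale.Agent.P272.DEF.Nem

/-!
The nonlinear fixed point `v = g - T N v` (`T` bounded linear) with holomorphic dependence on
`g`, and the one parameter family `v_s`, `g = s W`.
-/

open Complex Metric Set Filter Topology
open scoped BoundedContinuousFunction

namespace Vale.Agent.P272.DEF

set_option linter.unusedSectionVars false

variable {E F : Type*} [NormedAddCommGroup E] [NormedSpace ℂ E] [CompleteSpace E]
  [NormedAddCommGroup F] [NormedSpace ℂ F] [CompleteSpace F]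
variable {K D : Type*} [TopologicalSpace K] [CompactSpace K] [TopologicalSpace D]

namespace NData

variable (Δ : NData D E F) (j : C(D, K)) (T : (D →ᵇ F) →L[ℂ] C(K, E))

/-- The radius on which the fixed point lives. -/
noncomputable def rad : ℝ := min (Δ.ρ / 4) (1 / (8 * ((‖T‖ + 1) * (Δ.A + 1))))

theorem rad_pos : 0 < Δ.rad T := by
  have := Δ.hρ
  have := Δ.hA
  have := norm_nonneg T
  unfold rad
  positivity

theorem rad_lt : 2 * Δ.rad T < Δ.ρ := by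
  have := Δ.hρ
  have : Δ.rad T ≤ Δ.ρ / 4 := min_le_left _ _
  linarith

theorem rad_lt' : Δ.rad T < Δ.ρ := by
  have := Δ.rad_pos T
  have := Δ.rad_lt T
  linarith

/-- The nonlinear map. -/
noncomputable def B (v : C(K, E)) : C(K, E) := T (Δ.N j v)

theorem contr : Contr (Δ.B j T) (Δ.rad T) := by
  refine ⟨Δ.rad_pos T, ?_, ?_⟩
  · have h : Δ.N j (0 : C(K, E)) = 0 := by
      have := Δ.N_norm j (v := (0 : C(K, E))) (by simpa using Δ.hρ)
      simpa using this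
    simp [B, h]
  · intro u v hu hv
    have h1 : Δ.B j T u - Δ.B j T v = T (Δ.N j u - Δ.N j v) := by
      simp [B]
    rw [h1]
    refine (T.le_opNorm _).trans ?_
    have h2 := Δ.N_lip j (Δ.rad_pos T) (Δ.rad_lt T) hu hv
    have hr : Δ.rad T ≤ 1 / (8 * ((‖T‖ + 1) * (Δ.A + 1))) := min_le_right _ _
    have hA := Δ.hA
    have hT := norm_nonneg T
    have hpos : 0 < 8 * ((‖T‖ + 1) * (Δ.A + 1)) := by positivity
    rw [le_div_iff₀ hpos] at hr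
    have h3 : ‖T‖ * (4 * Δ.A * Δ.rad T) ≤ 1 / 2 := by
      have : 0 ≤ Δ.rad T := (Δ.rad_pos T).le
      nlinarith [mul_nonneg hT this, mul_nonneg hA this, mul_nonneg (mul_nonneg hT hA) this]
    calc ‖T‖ * ‖Δ.N j u - Δ.N j v‖ ≤ ‖T‖ * (4 * Δ.A * Δ.rad T * ‖u - v‖) := by gcongr
      _ = (‖T‖ * (4 * Δ.A * Δ.rad T)) * ‖u - v‖ := by ring
      _ ≤ 1 / 2 * ‖u - v‖ := by gcongr

/-- The solution map `g ↦ v`. -/
noncomputable def V (g : C(K, E)) : C(K, E) := Sol (Δ.B j T) g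

variable {g : C(K, E)}

theorem V_norm (hg : ‖g‖ ≤ Δ.rad T / 2) : ‖Δ.V j T g‖ ≤ Δ.rad T :=
  sol_norm_le' (Δ.contr j T) hg

theorem V_lt (hg : ‖g‖ ≤ Δ.rad T / 2) : ‖Δ.V j T g‖ < Δ.ρ :=
  (Δ.V_norm j T hg).trans_lt (Δ.rad_lt' T)

theorem V_norm2 (hg : ‖g‖ ≤ Δ.rad T / 2) : ‖Δ.V j T g‖ ≤ 2 * ‖g‖ :=
  sol_norm_le (Δ.contr j T) hg

theorem V_eq (hg : ‖g‖ ≤ Δ.rad T / 2) : Δ.V j T g = g - T (Δ.N j (Δ.V j T g)) :=
  sol_eq (Δ.contr j T) hg

theorem V_unique (hg : ‖g‖ ≤ Δ.rad T / 2) {u : C(K, E)} (hu : ‖u‖ ≤ Δ.rad T)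
    (he : u = g - T (Δ.N j u)) : u = Δ.V j T g :=
  sol_unique (Δ.contr j T) hg hu he

theorem V_lip {g' : C(K, E)} (hg : ‖g‖ ≤ Δ.rad T / 2) (hg' : ‖g'‖ ≤ Δ.rad T / 2) :
    ‖Δ.V j T g - Δ.V j T g'‖ ≤ 2 * ‖g - g'‖ :=
  sol_lip (Δ.contr j T) hg hg'

theorem V_hol {U : Set ℂ} (hU : IsOpen U) {g : ℂ → C(K, E)} (hg : DifferentiableOn ℂ g U)
    (hgb : ∀ s ∈ U, ‖g s‖ ≤ Δ.rad T / 2) :
    DifferentiableOn ℂ (fun s => Δ.V j T (g s)) U := by
  refine sol_hol (Δ.contr j T) hU ?_ hg hgb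
  intro u hu hb
  exact T.differentiable.comp_differentiableOn (Δ.N_hol j hU (Δ.rad_lt' T) hu hb)

/-- The size of the parameter disc for `g = s W`. -/
noncomputable def eps (W : C(K, E)) : ℝ := Δ.rad T / (2 * (‖W‖ + 1))

theorem eps_pos (W : C(K, E)) : 0 < Δ.eps T W := by
  have := Δ.rad_pos T
  have := norm_nonneg W
  unfold eps
  positivity

theorem sW_norm {W : C(K, E)} {s : ℂ} (hs : s ∈ ball (0:ℂ) (Δ.eps T W)) :
    ‖s • W‖ ≤ Δ.rad T / 2 := by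
  rw [mem_ball_zero_iff] at hs
  have hW := norm_nonneg W
  have h1 : Δ.eps T W * (‖W‖ + 1) = Δ.rad T / 2 := by
    unfold eps; field_simp
  rw [norm_smul]
  have h2 := norm_nonneg s
  have h3 := Δ.eps_pos T W
  nlinarith

/-- The one parameter family. -/
noncomputable def vs (W : C(K, E)) (s : ℂ) : C(K, E) := Δ.V j T (s • W)

variable {W : C(K, E)}

theorem vs_hol : DifferentiableOn ℂ (Δ.vs j T W) (ball 0 (Δ.eps T W)) :=
  Δ.V_hol j T isOpen_ball (by fun_prop) (fun s hs => Δ.sW_norm T hs)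

theorem vs_norm {s : ℂ} (hs : s ∈ ball (0:ℂ) (Δ.eps T W)) :
    ‖Δ.vs j T W s‖ ≤ 2 * (‖s‖ * ‖W‖) := by
  have := Δ.V_norm2 j T (Δ.sW_norm T hs)
  rwa [norm_smul] at this

theorem vs_lt {s : ℂ} (hs : s ∈ ball (0:ℂ) (Δ.eps T W)) : ‖Δ.vs j T W s‖ < Δ.ρ :=
  Δ.V_lt j T (Δ.sW_norm T hs)

theorem vs_eq {s : ℂ} (hs : s ∈ ball (0:ℂ) (Δ.eps T W)) :
    Δ.vs j T W s = s • W - T (Δ.N j (Δ.vs j T W s)) :=
  Δ.V_eq j T (Δ.sW_norm T hs)

theorem vs_zero : Δ.vs j T W 0 = 0 := by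
  have := Δ.vs_norm j T (W := W) (mem_ball_self (Δ.eps_pos T W))
  simpa using this

theorem vs_deriv : HasDerivAt (Δ.vs j T W) W 0 := by
  rw [hasDerivAt_iff_isLittleO_nhds_zero]
  have h1 : (fun h : ℂ => Δ.vs j T W (0 + h) - Δ.vs j T W 0 - h • W) =O[𝓝 0]
      fun h : ℂ => ‖h‖ ^ 2 := by
    refine Asymptotics.IsBigO.of_bound (‖T‖ * (Δ.A * (2 * ‖W‖) ^ 2)) ?_
    filter_upwards [isOpen_ball.mem_nhds (mem_ball_self (Δ.eps_pos T W))] with s hs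
    rw [zero_add, Δ.vs_zero, sub_zero]
    have e : Δ.vs j T W s - s • W = -T (Δ.N j (Δ.vs j T W s)) := by
      have := Δ.vs_eq j T hs
      rw [sub_eq_iff_eq_add, add_comm, ← sub_eq_add_neg]; exact this
    rw [e, norm_neg]
    refine (T.le_opNorm _).trans ?_
    have h2 := Δ.N_norm j (Δ.vs_lt j T hs)
    have h3 := Δ.vs_norm j T hs
    have hA := Δ.hA
    rw [norm_pow, norm_norm]
    calc ‖T‖ * ‖Δ.N j (Δ.vs j T W s)‖ ≤ ‖T‖ * (Δ.A * (2 * (‖s‖ * ‖W‖)) ^ 2) := by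
          refine mul_le_mul_of_nonneg_left (h2.trans ?_) (norm_nonneg _)
          gcongr
      _ = ‖T‖ * (Δ.A * (2 * ‖W‖) ^ 2) * ‖s‖ ^ 2 := by ring
  refine h1.trans_isLittleO ?_
  have := Asymptotics.isLittleO_norm_pow_id (E' := ℂ) one_lt_two
  simpa using this

end NData

end Vale.Agent.P272.DEF
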