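import Vale.Agent.P272.DEF.Hol
import Vale.Agent.P272.DEF.Fix

/-!
The Nemytskii operator `N v = q(·, v(·))` and the nonlinear fixed point
`v = g - (1 - ev_{k₀}) S N v`, with holomorphic dependence on parameters.
-/

open Complex Metric Set Filter Topology
open scoped BoundedContinuousFunction

namespace Vale.Agent.P272.DEF

set_option linter.unusedSectionVars false

variable {E : Type*} [NormedAddCommGroup E] [NormedSpace ℂ E]
variable {F : Type*} [NormedAddCommGroup F] [NormedSpace ℂ F]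

/-- Derivative bound for a holomorphic map with quadratic bound. -/
theorem fderiv_bound {q : E → F} {ρ A r : ℝ} (hr : 0 < r) (h2r : 2 * r < ρ)
    (hq : DifferentiableOn ℂ q (ball 0 ρ)) (hb : ∀ v, ‖v‖ < ρ → ‖q v‖ ≤ A * ‖v‖ ^ 2)
    (hA : 0 ≤ A) {x : E} (hx : ‖x‖ ≤ r) : ‖fderiv ℂ q x‖ ≤ 4 * A * r := by
  refine ContinuousLinearMap.opNorm_le_bound _ (by positivity) ?_
  intro h
  rcases eq_or_ne h 0 with rfl | hne
  · simp
  have hh : 0 < ‖h‖ := norm_pos_iff.2 hne
  set R : ℝ := r / ‖h‖ with hR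
  have hRpos : 0 < R := by positivity
  have hpt : ∀ t : ℂ, ‖t‖ ≤ R → ‖x + t • h‖ ≤ 2 * r := by
    intro t ht
    calc ‖x + t • h‖ ≤ ‖x‖ + ‖t • h‖ := norm_add_le _ _
      _ = ‖x‖ + ‖t‖ * ‖h‖ := by rw [norm_smul]
      _ ≤ r + R * ‖h‖ := by gcongr
      _ = 2 * r := by rw [hR]; field_simp; ring
  have hdiff : ∀ t : ℂ, ‖t‖ ≤ R → DifferentiableAt ℂ (fun t : ℂ => q (x + t • h)) t := by
    intro t ht
    have h1 : DifferentiableAt ℂ q (x + t • h) := by
      refine (hq _ ?_).differentiableAt (isOpen_ball.mem_nhds ?_) <;>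
      · rw [mem_ball_zero_iff]; exact (hpt t ht).trans_lt h2r
    exact h1.comp t (by fun_prop)
  have hcl : DiffContOnCl ℂ (fun t : ℂ => q (x + t • h)) (ball 0 R) := by
    refine DifferentiableOn.diffContOnCl ?_
    intro t ht
    have : t ∈ closedBall (0:ℂ) R := closure_ball_subset_closedBall ht
    rw [mem_closedBall_zero_iff] at this
    exact (hdiff t this).differentiableWithinAt
  have hder := Complex.norm_deriv_le_of_forall_mem_sphere_norm_le (C := A * (2 * r) ^ 2)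
    hRpos hcl (by
      intro t ht
      rw [mem_sphere_zero_iff_norm] at ht
      have h1 := hpt t ht.le
      refine (hb _ (h1.trans_lt h2r)).trans ?_
      gcongr)
  have heq : deriv (fun t : ℂ => q (x + t • h)) 0 = fderiv ℂ q x h := by
    have h1 : HasFDerivAt q (fderiv ℂ q x) (x + (0:ℂ) • h) := by
      have : x + (0:ℂ) • h = x := by simp
      rw [this]
      refine ((hq x ?_).differentiableAt (isOpen_ball.mem_nhds ?_)).hasFDerivAt <;>
      · rw [mem_ball_zero_iff]; linarith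
    have h2 : HasDerivAt (fun t : ℂ => x + t • h) h 0 := by
      have := ((hasDerivAt_id (0:ℂ)).smul_const h).const_add x
      simpa using this
    exact (h1.comp_hasDerivAt (0:ℂ) h2).deriv
  rw [heq] at hder
  refine hder.trans (le_of_eq ?_)
  rw [hR]; field_simp; ring

theorem lip_q {q : E → F} {ρ A r : ℝ} (hr : 0 < r) (h2r : 2 * r < ρ)
    (hq : DifferentiableOn ℂ q (ball 0 ρ)) (hb : ∀ v, ‖v‖ < ρ → ‖q v‖ ≤ A * ‖v‖ ^ 2)
    (hA : 0 ≤ A) {x y : E} (hx : ‖x‖ ≤ r) (hy : ‖y‖ ≤ r) :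
    ‖q x - q y‖ ≤ 4 * A * r * ‖x - y‖ := by
  refine (convex_closedBall (0:E) r).norm_image_sub_le_of_norm_fderiv_le (𝕜 := ℂ) ?_ ?_
    (mem_closedBall_zero_iff.2 hy) (mem_closedBall_zero_iff.2 hx)
  · intro z hz
    rw [mem_closedBall_zero_iff] at hz
    refine (hq z ?_).differentiableAt (isOpen_ball.mem_nhds ?_) <;>
    · rw [mem_ball_zero_iff]; linarith
  · intro z hz
    exact fderiv_bound hr h2r hq hb hA (mem_closedBall_zero_iff.1 hz)

variable {K D : Type*} [TopologicalSpace K] [CompactSpace K] [TopologicalSpace D]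

/-- Data for the Nemytskii operator. -/
structure NData (D : Type*) [TopologicalSpace D] (E F : Type*) [NormedAddCommGroup E]
    [NormedSpace ℂ E] [NormedAddCommGroup F] [NormedSpace ℂ F] where
  q : D → E → F
  ρ : ℝ
  A : ℝ
  hρ : 0 < ρ
  hA : 0 ≤ A
  cont : ContinuousOn (Function.uncurry q) (univ ×ˢ ball 0 ρ)
  hol : ∀ z, DifferentiableOn ℂ (q z) (ball 0 ρ)
  bd : ∀ z v, ‖v‖ < ρ → ‖q z v‖ ≤ A * ‖v‖ ^ 2

namespace NData

variable (Δ : NData D E F) (j : C(D, K))

theorem val_lt {v : C(K, E)} {r : ℝ} (hv : ‖v‖ < r) (k : K) : ‖v k‖ < r :=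
  (v.norm_coe_le_norm k).trans_lt hv

theorem cont_comp {v : C(K, E)} (hv : ‖v‖ < Δ.ρ) : Continuous (fun z => Δ.q z (v (j z))) := by
  have h1 : Continuous (fun z : D => ((z, v (j z)) : D × E)) := by fun_prop
  rw [← continuousOn_univ] at h1 ⊢
  refine Δ.cont.comp h1 ?_
  intro z _
  exact ⟨mem_univ _, mem_ball_zero_iff.2 (val_lt hv _)⟩

open Classical in
/-- The Nemytskii operator. -/
noncomputable def N (v : C(K, E)) : D →ᵇ F :=
  if hv : ‖v‖ < Δ.ρ then
    BoundedContinuousFunction.ofNormedAddCommGroup (fun z => Δ.q z (v (j z))) (Δ.cont_comp j hv)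
      (Δ.A * ‖v‖ ^ 2) (by
        intro z
        refine (Δ.bd z _ (val_lt hv _)).trans ?_
        have := v.norm_coe_le_norm (j z)
        have := Δ.hA
        gcongr)
  else 0

theorem N_apply {v : C(K, E)} (hv : ‖v‖ < Δ.ρ) (z : D) : Δ.N j v z = Δ.q z (v (j z)) := by
  rw [N, dif_pos hv]; rfl

theorem N_norm {v : C(K, E)} (hv : ‖v‖ < Δ.ρ) : ‖Δ.N j v‖ ≤ Δ.A * ‖v‖ ^ 2 := by
  rw [BoundedContinuousFunction.norm_le (mul_nonneg Δ.hA (by positivity))]
  intro z
  rw [Δ.N_apply j hv]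
  refine (Δ.bd z _ (val_lt hv _)).trans ?_
  have := v.norm_coe_le_norm (j z)
  have := Δ.hA
  gcongr

theorem N_lip {r : ℝ} (hr : 0 < r) (h2r : 2 * r < Δ.ρ) {u v : C(K, E)} (hu : ‖u‖ ≤ r)
    (hv : ‖v‖ ≤ r) : ‖Δ.N j u - Δ.N j v‖ ≤ 4 * Δ.A * r * ‖u - v‖ := by
  have hA := Δ.hA
  rw [BoundedContinuousFunction.norm_le (by positivity)]
  intro z
  rw [BoundedContinuousFunction.coe_sub, Pi.sub_apply, Δ.N_apply j (by linarith),
    Δ.N_apply j (by linarith)]
  refine (lip_q hr h2r (Δ.hol z) (Δ.bd z) hA ((u.norm_coe_le_norm _).trans hu)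
    ((v.norm_coe_le_norm _).trans hv)).trans ?_
  have := (u - v).norm_coe_le_norm (j z)
  rw [ContinuousMap.coe_sub, Pi.sub_apply] at this
  gcongr

theorem N_hol [CompleteSpace F] {U : Set ℂ} (hU : IsOpen U) {u : ℂ → C(K, E)} {r : ℝ}
    (hr : r < Δ.ρ)
    (hu : DifferentiableOn ℂ u U) (hb : ∀ s ∈ U, ‖u s‖ ≤ r) :
    DifferentiableOn ℂ (fun s => Δ.N j (u s)) U := by
  refine differentiableOn_bcf hU (M := Δ.A * r ^ 2) ?_ ?_
  · intro s hs
    refine (Δ.N_norm j ((hb s hs).trans_lt hr)).trans ?_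
    have := hb s hs
    have := Δ.hA
    gcongr
  · intro z
    have h1 : DifferentiableOn ℂ (fun s => u s (j z)) U :=
      ((ContinuousMap.evalCLM ℂ (j z) : C(K, E) →L[ℂ] E).differentiable.comp_differentiableOn hu)
    have h2 : DifferentiableOn ℂ (fun s => Δ.q z (u s (j z))) U := by
      refine (Δ.hol z).comp h1 ?_
      intro s hs
      exact mem_ball_zero_iff.2 (((u s).norm_coe_le_norm _).trans_lt ((hb s hs).trans_lt hr))
    refine h2.congr ?_
    intro s hs
    exact Δ.N_apply j ((hb s hs).trans_lt hr) z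

end NData

end Vale.Agent.P272.DEF
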