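import Vale.Agent.P272.DEF.Disc

/-!
The linear equation `u = g - T (A u)` on the closed unit disc (Neumann series).
-/

open Complex Metric Set Filter Topology
open scoped BoundedContinuousFunction

namespace Vale.Agent.P272.DEF

set_option linter.unusedSectionVars false

variable {E : Type*} [NormedAddCommGroup E] [NormedSpace ℂ E] [CompleteSpace E]
variable {T : (ℂ → E) → ℂ → E} {κ : ℂ → ℝ} {C₀ : ℝ}

theorem CTProp.S_norm (h : CTProp T κ C₀) (y : DD →ᵇ E) : ‖h.S y‖ ≤ C₀ * ‖y‖ := by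
  rw [ContinuousMap.norm_le _ (mul_nonneg h.C₀nn (norm_nonneg _))]
  intro z
  exact h.bd _ _ (ext_cont h.κcont y) (ext_bd h.κpos y) _ z.2

/-- The bounded continuous function `κ⁻¹ A v`. -/
noncomputable def mulA (h : CTProp T κ C₀) {A : ℂ → E →L[ℂ] E} {δ : ℝ}
    (hA : ContinuousOn A (ball 0 1)) (hδ : ∀ w ∈ ball (0:ℂ) 1, ‖A w‖ ≤ δ * κ w)
    (v : C(KK, E)) : DD →ᵇ E :=
  BoundedContinuousFunction.ofNormedAddCommGroup
    (fun z : DD => ((κ z : ℝ) : ℂ)⁻¹ • A z (v (jj z)))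
    (by
      have h2 : Continuous fun z : DD => κ z := continuousOn_iff_continuous_domRestrict.1 h.κcont
      have h3 : Continuous fun z : DD => (((κ z : ℝ) : ℂ))⁻¹ := by
        refine Continuous.inv₀ (continuous_ofReal.comp h2) ?_
        intro p
        exact_mod_cast (h.κpos _ p.2).ne'
      have h4 : Continuous fun z : DD => A z := continuousOn_iff_continuous_domRestrict.1 hA
      exact h3.smul (h4.clm_apply (by fun_prop)))
    (δ * ‖v‖)
    (by
      intro z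
      have h1 := hδ z.1 z.2
      have h2 := h.κpos z.1 z.2
      rw [norm_smul, norm_inv, Complex.norm_real, Real.norm_of_nonneg h2.le]
      rw [inv_mul_le_iff₀ h2]
      refine ((A z).le_opNorm _).trans ?_
      have h3 := v.norm_coe_le_norm (jj z)
      have h4 : 0 ≤ δ * κ z := (norm_nonneg _).trans h1
      calc ‖A z‖ * ‖v (jj z)‖ ≤ (δ * κ z) * ‖v‖ := by gcongr
        _ = κ z * (δ * ‖v‖) := by ring)

theorem mulA_apply (h : CTProp T κ C₀) {A : ℂ → E →L[ℂ] E} {δ : ℝ}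
    (hA : ContinuousOn A (ball 0 1)) (hδ : ∀ w ∈ ball (0:ℂ) 1, ‖A w‖ ≤ δ * κ w)
    (v : C(KK, E)) (z : DD) :
    mulA h hA hδ v z = ((κ z : ℝ) : ℂ)⁻¹ • A z (v (jj z)) := rfl

theorem mulA_sub (h : CTProp T κ C₀) {A : ℂ → E →L[ℂ] E} {δ : ℝ}
    (hA : ContinuousOn A (ball 0 1)) (hδ : ∀ w ∈ ball (0:ℂ) 1, ‖A w‖ ≤ δ * κ w)
    (v w : C(KK, E)) :
    mulA h hA hδ v - mulA h hA hδ w = mulA h hA hδ (v - w) := by
  ext z
  simp only [BoundedContinuousFunction.coe_sub, Pi.sub_apply, mulA_apply,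
    ContinuousMap.sub_apply, map_sub, smul_sub]

theorem mulA_norm (h : CTProp T κ C₀) {A : ℂ → E →L[ℂ] E} {δ : ℝ}
    (hA : ContinuousOn A (ball 0 1)) (hδ : ∀ w ∈ ball (0:ℂ) 1, ‖A w‖ ≤ δ * κ w)
    (hδ0 : 0 ≤ δ) (v : C(KK, E)) :
    ‖mulA h hA hδ v‖ ≤ δ * ‖v‖ := by
  refine BoundedContinuousFunction.norm_ofNormedAddCommGroup_le _ (by positivity) _

/-- **Linear equation** `u = g - T (A u)`. -/
theorem neumann (h : CTProp T κ C₀) {A : ℂ → E →L[ℂ] E} {δ : ℝ}
    (hA : ContinuousOn A (ball 0 1)) (hδ : ∀ w ∈ ball (0:ℂ) 1, ‖A w‖ ≤ δ * κ w)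
    (hs : C₀ * δ ≤ 1 / 2) {g : ℂ → E} (hg : ContinuousOn g (closedBall 0 1)) {G : ℝ}
    (hG : ∀ z ∈ closedBall (0:ℂ) 1, ‖g z‖ ≤ G) :
    ∃ u : ℂ → E, ContinuousOn u (closedBall 0 1) ∧
      (∀ z ∈ closedBall (0:ℂ) 1, u z = g z - T (fun w => A w (u w)) z) ∧
      (∀ z ∈ closedBall (0:ℂ) 1, ‖u z‖ ≤ 2 * G) ∧
      (∀ z ∈ closedBall (0:ℂ) 1, ‖u z - g z‖ ≤ 2 * (C₀ * δ) * G) := by
  classical
  have hδ0 : 0 ≤ δ := by
    have h1 := hδ 0 (by simp)
    have h2 := h.κpos 0 (by simp)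
    by_contra hneg
    push Not at hneg
    have := norm_nonneg (A 0)
    nlinarith
  have hG0 : 0 ≤ G := (norm_nonneg _).trans (hG 0 (by simp))
  set g' : C(KK, E) := ⟨fun z => g z.1, continuousOn_iff_continuous_domRestrict.1 hg⟩ with hg'
  have hgn : ‖g'‖ ≤ G := by
    rw [ContinuousMap.norm_le _ hG0]
    intro z; exact hG z.1 z.2
  set r : ℝ := 2 * G + 1 with hr
  set B : C(KK, E) → C(KK, E) := fun v => h.S (mulA h hA hδ v) with hB
  have hBn : ∀ v, ‖B v‖ ≤ (C₀ * δ) * ‖v‖ := by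
    intro v
    refine (h.S_norm _).trans ?_
    rw [mul_assoc]
    exact mul_le_mul_of_nonneg_left (mulA_norm h hA hδ hδ0 v) h.C₀nn
  have hBs : ∀ u v, B u - B v = B (u - v) := by
    intro u v
    rw [hB]
    simp only
    rw [← map_sub, mulA_sub]
  have hC : Contr B r := by
    refine ⟨by positivity, ?_, ?_⟩
    · have := hBn 0
      simpa using this
    · intro u v _ _
      rw [hBs]
      refine (hBn _).trans ?_
      gcongr
  have hgr : ‖g'‖ ≤ r / 2 := by rw [hr]; linarith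
  set u := Sol B g' with hu
  have hueq : u = g' - B u := sol_eq hC hgr
  have hun : ‖u‖ ≤ 2 * G := (sol_norm_le hC hgr).trans (by linarith)
  refine ⟨fun z => if hz : z ∈ closedBall (0:ℂ) 1 then u ⟨z, hz⟩ else 0, ?_, ?_, ?_, ?_⟩
  · rw [continuousOn_iff_continuous_domRestrict]
    have he : (closedBall (0:ℂ) 1).domRestrict
        (fun z => if hz : z ∈ closedBall (0:ℂ) 1 then u ⟨z, hz⟩ else 0) = fun z => u z := by
      funext z
      exact dif_pos z.2
    rw [he]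
    exact u.continuous
  · intro z hz
    have h2 := congrArg (fun f : C(KK, E) => f ⟨z, hz⟩) hueq
    simp only [ContinuousMap.sub_apply] at h2
    have h3 : B u ⟨z, hz⟩ = T (ext κ (mulA h hA hδ u)) z := rfl
    have hext : ∀ w ∈ ball (0:ℂ) 1, ext κ (mulA h hA hδ u) w
        = A w (if hz : w ∈ closedBall (0:ℂ) 1 then u ⟨w, hz⟩ else 0) := by
      intro w hw
      have hw' : w ∈ closedBall (0:ℂ) 1 := ball_subset_closedBall hw
      rw [ext_apply _ _ hw, mulA_apply, dif_pos hw', smul_smul]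
      have hk : (κ w : ℂ) ≠ 0 := by exact_mod_cast (h.κpos w hw).ne'
      rw [mul_inv_cancel₀ hk, one_smul]
      rfl
    rw [h3, h.congr _ _ hext z hz] at h2
    simp only [dif_pos hz]
    exact h2
  · intro z hz
    simp only [dif_pos hz]
    exact (u.norm_coe_le_norm _).trans hun
  · intro z hz
    simp only [dif_pos hz]
    have h2 := congrArg (fun f : C(KK, E) => f ⟨z, hz⟩) hueq
    simp only [ContinuousMap.sub_apply] at h2
    have h3 : u ⟨z, hz⟩ - g z = -(B u ⟨z, hz⟩) := by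
      rw [h2]
      change g z - _ - g z = _
      abel
    rw [h3, norm_neg]
    have h4 := (B u).norm_coe_le_norm ⟨z, hz⟩
    have h5 := hBn u
    have h6 : 0 ≤ C₀ * δ := mul_nonneg h.C₀nn hδ0
    nlinarith

end Vale.Agent.P272.DEF
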