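import Vale.Agent.P272.DEF.Disc
import Vale.Agent.P272.DEF.Gat

/-!
Several parameter version: `a x z = W z x - T[Q(·, a x ·)](z)`, `x` in a ball of any complex
normed space, Fréchet holomorphic in `x`, continuous in `(x, z)` up to the boundary of the disc.
-/

open Complex Metric Set Filter Topology
open scoped BoundedContinuousFunction

namespace Vale.Agent.P272.DEF

set_option linter.unusedSectionVars false

section

variable {E F : Type*} [NormedAddCommGroup E] [NormedSpace ℂ E] [CompleteSpace E]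
  [NormedAddCommGroup F] [NormedSpace ℂ F] [CompleteSpace F]
variable {K D : Type*} [TopologicalSpace K] [CompactSpace K] [TopologicalSpace D]

namespace NData

variable (Δ : NData D E F) (j : C(D, K)) (T : (D →ᵇ F) →L[ℂ] C(K, E))

/-- the solution map is bounded and Gateaux holomorphic -/
theorem V_GH : GH (Δ.V j T) (ball 0 (Δ.rad T / 2)) (Δ.rad T) := by
  constructor
  · intro g hg
    rw [mem_ball_zero_iff] at hg
    exact Δ.V_norm j T hg.le
  · intro g hg h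
    set U : Set ℂ := {t : ℂ | g + t • h ∈ ball (0 : C(K, E)) (Δ.rad T / 2)} with hU
    have hUo : IsOpen U := isOpen_ball.preimage (by fun_prop)
    have h0 : (0:ℂ) ∈ U := by simpa [hU] using hg
    have h1 : DifferentiableOn ℂ (fun t : ℂ => Δ.V j T (g + t • h)) U := by
      refine Δ.V_hol j T hUo (by fun_prop) ?_
      intro t ht
      have : g + t • h ∈ ball (0 : C(K, E)) (Δ.rad T / 2) := ht
      rw [mem_ball_zero_iff] at this
      exact this.le
    exact (h1 0 h0).differentiableAt (hUo.mem_nhds h0)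

theorem V_diff : DifferentiableOn ℂ (Δ.V j T) (ball 0 (Δ.rad T / 2)) :=
  (Δ.V_GH j T).differentiableOn isOpen_ball

theorem V_fderiv_cont : ContinuousOn (fderiv ℂ (Δ.V j T)) (ball 0 (Δ.rad T / 2)) :=
  (Δ.V_GH j T).continuousOn_fderiv isOpen_ball

/-- quadratic estimate of the nonlinear part -/
theorem V_sub_norm {g : C(K, E)} (hg : ‖g‖ ≤ Δ.rad T / 2) :
    ‖Δ.V j T g - g‖ ≤ 4 * ‖T‖ * Δ.A * ‖g‖ ^ 2 := by
  have e : Δ.V j T g - g = -T (Δ.N j (Δ.V j T g)) := by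
    have := Δ.V_eq j T hg
    rw [sub_eq_iff_eq_add, add_comm, ← sub_eq_add_neg]; exact this
  rw [e, norm_neg]
  refine (T.le_opNorm _).trans ?_
  have h2 := Δ.N_norm j (Δ.V_lt j T hg)
  have h3 := Δ.V_norm2 j T hg
  have hA := Δ.hA
  calc ‖T‖ * ‖Δ.N j (Δ.V j T g)‖ ≤ ‖T‖ * (Δ.A * (2 * ‖g‖) ^ 2) := by
        refine mul_le_mul_of_nonneg_left (h2.trans ?_) (norm_nonneg _)
        gcongr
    _ = _ := by ring

/-- Lipschitz estimate of the nonlinear part -/
theorem V_sub_lip {g g' : C(K, E)} (hg : ‖g‖ ≤ Δ.rad T / 2) (hg' : ‖g'‖ ≤ Δ.rad T / 2) :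
    ‖(Δ.V j T g - g) - (Δ.V j T g' - g')‖ ≤ 16 * ‖T‖ * Δ.A * (‖g‖ + ‖g'‖) * ‖g - g'‖ := by
  have hA := Δ.hA
  set u := Δ.V j T g with hu
  set v := Δ.V j T g' with hv
  have e : (u - g) - (v - g') = -T (Δ.N j u - Δ.N j v) := by
    have h1 := Δ.V_eq j T hg
    have h2 := Δ.V_eq j T hg'
    rw [← hu] at h1
    rw [← hv] at h2
    have h3 : u - g = -T (Δ.N j u) := by
      rw [sub_eq_iff_eq_add, add_comm, ← sub_eq_add_neg]; exact h1
    have h4 : v - g' = -T (Δ.N j v) := by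
      rw [sub_eq_iff_eq_add, add_comm, ← sub_eq_add_neg]; exact h2
    rw [h3, h4, map_sub]; abel
  rw [e, norm_neg]
  refine (T.le_opNorm _).trans ?_
  have hun : ‖u‖ ≤ 2 * ‖g‖ := Δ.V_norm2 j T hg
  have hvn : ‖v‖ ≤ 2 * ‖g'‖ := Δ.V_norm2 j T hg'
  have hur : ‖u‖ ≤ Δ.rad T := Δ.V_norm j T hg
  have hvr : ‖v‖ ≤ Δ.rad T := Δ.V_norm j T hg'
  have hl : ‖u - v‖ ≤ 2 * ‖g - g'‖ := Δ.V_lip j T hg hg'
  set r := max ‖u‖ ‖v‖ with hr
  have hrr : r ≤ Δ.rad T := max_le hur hvr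
  have hr2 : r ≤ 2 * (‖g‖ + ‖g'‖) := by
    refine max_le ?_ ?_
    · have := norm_nonneg g'; linarith
    · have := norm_nonneg g; linarith
  have hr0 : 0 ≤ r := (norm_nonneg u).trans (le_max_left _ _)
  rcases eq_or_lt_of_le hr0 with h0 | hpos
  · have hu0 : u = 0 := by
      have : ‖u‖ ≤ 0 := by rw [h0]; exact le_max_left _ _
      exact norm_le_zero_iff.1 this
    have hv0 : v = 0 := by
      have : ‖v‖ ≤ 0 := by rw [h0]; exact le_max_right _ _
      exact norm_le_zero_iff.1 this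
    rw [hu0, hv0, sub_self, norm_zero, mul_zero]
    positivity
  · have h2r : 2 * r < Δ.ρ := by
      have := Δ.rad_lt T
      linarith
    have h5 := Δ.N_lip j hpos h2r (u := u) (v := v) (le_max_left _ _) (le_max_right _ _)
    calc ‖T‖ * ‖Δ.N j u - Δ.N j v‖ ≤ ‖T‖ * (4 * Δ.A * r * ‖u - v‖) := by gcongr
      _ ≤ ‖T‖ * (4 * Δ.A * (2 * (‖g‖ + ‖g'‖)) * (2 * ‖g - g'‖)) := by gcongr
      _ = _ := by ring

theorem V_zero : Δ.V j T 0 = 0 := by
  have := Δ.V_norm2 j T (g := 0) (by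
    have := Δ.rad_pos T
    simp only [norm_zero]; linarith)
  simpa using this

theorem V_hasFDerivAt_zero : HasFDerivAt (Δ.V j T) (ContinuousLinearMap.id ℂ C(K, E)) 0 := by
  rw [hasFDerivAt_iff_isLittleO_nhds_zero]
  have hrad := Δ.rad_pos T
  have h1 : (fun h : C(K, E) => Δ.V j T (0 + h) - Δ.V j T 0
      - (ContinuousLinearMap.id ℂ C(K, E)) h) =O[𝓝 0] fun h : C(K, E) => ‖h‖ ^ 2 := by
    refine Asymptotics.IsBigO.of_bound (4 * ‖T‖ * Δ.A) ?_
    filter_upwards [isOpen_ball.mem_nhds (mem_ball_self (x := (0 : C(K, E)))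
      (show (0:ℝ) < Δ.rad T / 2 by positivity))] with h hh
    rw [mem_ball_zero_iff] at hh
    rw [zero_add, Δ.V_zero, sub_zero, norm_pow, norm_norm]
    exact Δ.V_sub_norm j T hh.le
  refine h1.trans_isLittleO ?_
  exact Asymptotics.isLittleO_norm_pow_id one_lt_two

end NData

end

variable {E : Type*} [NormedAddCommGroup E] [NormedSpace ℂ E] {T : (ℂ → E) → ℂ → E}
  {κ : ℂ → ℝ} {C₀ : ℝ}

/-- the normalised transform `T F z - T F 0` -/
theorem CTProp.norm0 (h : CTProp T κ C₀) :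
    CTProp (fun F z => T F z - T F 0) κ (2 * C₀) := by
  have h00 : (0:ℂ) ∈ closedBall (0:ℂ) 1 := by simp
  refine ⟨h.κpos, h.κcont, by have := h.C₀nn; positivity, ?_, ?_, ?_, ?_, ?_⟩
  · intro F B hF hb
    exact (h.cont F B hF hb).sub continuousOn_const
  · intro F B hF hb z hz
    refine (norm_sub_le _ _).trans ?_
    have h1 := h.bd F B hF hb z hz
    have h2 := h.bd F B hF hb 0 h00
    linarith
  · intro F G B hF hG hb hb' z hz
    rw [h.add F G B hF hG hb hb' z hz, h.add F G B hF hG hb hb' 0 h00]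
    abel
  · intro c F B hF hb z hz
    rw [h.smul c F B hF hb z hz, h.smul c F B hF hb 0 h00, smul_sub]
  · intro F G hFG z hz
    rw [h.congr F G hFG z hz, h.congr F G hFG 0 h00]

section Param

variable {P : Type*} [NormedAddCommGroup P] [NormedSpace ℂ P]

/-- the family `x ↦ W · x` as a bounded linear map into `C(KK, E)` -/
theorem exists_clm {W : ℂ → P →L[ℂ] E} (hW : ContinuousOn W (closedBall 0 1)) :
    ∃ W' : P →L[ℂ] C(KK, E), ∀ (x : P) (z : KK), W' x z = W z x := by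
  obtain ⟨B, hB⟩ := (isCompact_closedBall (0:ℂ) 1).exists_bound_of_continuousOn hW
  have hB0 : 0 ≤ B := (norm_nonneg _).trans (hB 0 (by simp))
  have hWc : Continuous fun z : KK => W z := continuousOn_iff_continuous_domRestrict.1 hW
  refine ⟨LinearMap.mkContinuous
    { toFun := fun x => ⟨fun z : KK => W z x, hWc.clm_apply continuous_const⟩
      map_add' := by intro x y; ext z; simp
      map_smul' := by intro c x; ext z; simp } B ?_, fun x z => rfl⟩
  intro x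
  rw [ContinuousMap.norm_le _ (by positivity)]
  intro z
  exact (W z).le_of_opNorm_le (hB z.1 z.2) x

variable [CompleteSpace E]

/-- **Tube lemma.** Holomorphic family `a x z`, `x` in a small ball of `P`, with
`a x z = W z x - T[Q(·, a x ·)](z)` on the closed disc. -/
theorem tube (h : CTProp T κ C₀) {Q : ℂ → E → E} {ρ A : ℝ} (hQ : QProp Q κ ρ A)
    {W : ℂ → P →L[ℂ] E} (hW : ContinuousOn W (closedBall 0 1)) :
    ∃ δ > 0, ∃ C : ℝ, 0 ≤ C ∧ ∃ a : P → ℂ → E,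
      ContinuousOn (fun p : P × ℂ => a p.1 p.2) (ball 0 δ ×ˢ closedBall 0 1) ∧
      (∀ k : P, ContinuousOn (fun p : P × ℂ => fderiv ℂ (fun x => a x p.2) p.1 k)
        (ball 0 δ ×ˢ closedBall 0 1)) ∧
      (∀ z ∈ closedBall (0:ℂ) 1, DifferentiableOn ℂ (fun x => a x z) (ball 0 δ)) ∧
      (∀ z, a 0 z = 0) ∧
      (∀ z ∈ closedBall (0:ℂ) 1, HasFDerivAt (fun x => a x z) (W z) 0) ∧
      (∀ x ∈ ball (0:P) δ, ∀ z, ‖a x z‖ < ρ) ∧
      (∀ x ∈ ball (0:P) δ, ∀ z, ‖a x z‖ ≤ C * ‖x‖) ∧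
      (∀ x ∈ ball (0:P) δ, ∀ z ∈ closedBall (0:ℂ) 1, ‖a x z - W z x‖ ≤ C * ‖x‖ ^ 2) ∧
      (∀ x ∈ ball (0:P) δ, ∀ y ∈ ball (0:P) δ, ∀ z ∈ closedBall (0:ℂ) 1,
        ‖(a x z - W z x) - (a y z - W z y)‖ ≤ C * (‖x‖ + ‖y‖) * ‖x - y‖) ∧
      (∀ x ∈ ball (0:P) δ, ∀ z ∈ closedBall (0:ℂ) 1,
        a x z = W z x - T (fun w => Q w (a x w)) z) := by
  classical
  set Δ := hQ.data h.κpos h.κcont with hΔ
  set S := h.S with hS
  obtain ⟨W', hW'⟩ := exists_clm hW
  set B := ‖W'‖ with hB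
  have hB0 : 0 ≤ B := norm_nonneg _
  have hrad := Δ.rad_pos S
  set δ : ℝ := Δ.rad S / (2 * (B + 1)) with hδ
  have hδ0 : 0 < δ := by positivity
  have hWx : ∀ x : P, ‖W' x‖ ≤ B * ‖x‖ := fun x => W'.le_opNorm x
  have hsm : ∀ x ∈ ball (0:P) δ, ‖W' x‖ < Δ.rad S / 2 := by
    intro x hx
    rw [mem_ball_zero_iff] at hx
    have h1 : δ * (B + 1) = Δ.rad S / 2 := by rw [hδ]; field_simp
    have h2 := hWx x
    have h3 := norm_nonneg x
    nlinarith
  set u : P → C(KK, E) := fun x => Δ.V jj S (W' x) with hu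
  have hmaps : MapsTo W' (ball (0:P) δ) (ball (0 : C(KK, E)) (Δ.rad S / 2)) := fun x hx => by
    rw [mem_ball_zero_iff]; exact hsm x hx
  have hud : DifferentiableOn ℂ u (ball 0 δ) :=
    (Δ.V_diff jj S).comp W'.differentiable.differentiableOn hmaps
  have huc : ContinuousOn u (ball 0 δ) := hud.continuousOn
  have huf : ∀ x ∈ ball (0:P) δ, HasFDerivAt u ((fderiv ℂ (Δ.V jj S) (W' x)).comp W') x := by
    intro x hx
    have h1 : HasFDerivAt (Δ.V jj S) (fderiv ℂ (Δ.V jj S) (W' x)) (W' x) :=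
      ((Δ.V_diff jj S (W' x) (hmaps hx)).differentiableAt
        (isOpen_ball.mem_nhds (hmaps hx))).hasFDerivAt
    exact h1.comp x W'.hasFDerivAt
  have huf' : ContinuousOn (fderiv ℂ u) (ball 0 δ) := by
    have h1 : ContinuousOn (fun x => (fderiv ℂ (Δ.V jj S) (W' x)).comp W') (ball (0:P) δ) := by
      have h2 : ContinuousOn (fun x => fderiv ℂ (Δ.V jj S) (W' x)) (ball (0:P) δ) :=
        (Δ.V_fderiv_cont jj S).comp W'.continuous.continuousOn hmaps
      exact h2.clm_comp continuousOn_const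
    exact h1.congr fun x hx => (huf x hx).fderiv
  have hun : ∀ x ∈ ball (0:P) δ, ‖u x‖ < ρ := fun x hx => Δ.V_lt jj S (hsm x hx).le
  have hun2 : ∀ x ∈ ball (0:P) δ, ‖u x‖ ≤ 2 * B * ‖x‖ := by
    intro x hx
    have h1 := Δ.V_norm2 jj S (hsm x hx).le
    have h2 := hWx x
    calc ‖u x‖ ≤ 2 * ‖W' x‖ := h1
      _ ≤ 2 * (B * ‖x‖) := by gcongr
      _ = _ := by ring
  set C : ℝ := 2 * B + 16 * ‖S‖ * A * B ^ 2 with hC
  have hA : 0 ≤ A := hQ.hA
  have hC0 : 0 ≤ C := by positivity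
  refine ⟨δ, hδ0, C, hC0,
    fun x z => if hz : z ∈ closedBall (0:ℂ) 1 then u x ⟨z, hz⟩ else 0, ?_, ?_, ?_, ?_, ?_, ?_,
    ?_, ?_, ?_, ?_⟩
  · rw [continuousOn_iff_continuous_domRestrict]
    have h1 : Continuous fun p : (ball (0:P) δ ×ˢ closedBall (0:ℂ) 1 : Set (P × ℂ)) =>
        u p.1.1 := by
      have := continuousOn_iff_continuous_domRestrict.1 huc
      exact this.comp (f := fun p : (ball (0:P) δ ×ˢ closedBall (0:ℂ) 1 :
        Set (P × ℂ)) => (⟨p.1.1, p.2.1⟩ : ball (0:P) δ)) (by fun_prop)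
    have h2 : Continuous fun p : (ball (0:P) δ ×ˢ closedBall (0:ℂ) 1 : Set (P × ℂ)) =>
        (⟨p.1.2, p.2.2⟩ : KK) := by fun_prop
    have h3 : Continuous fun p : (ball (0:P) δ ×ˢ closedBall (0:ℂ) 1 : Set (P × ℂ)) =>
        (u p.1.1) (⟨p.1.2, p.2.2⟩ : KK) := h1.eval h2
    convert h3 using 2 with p
    exact dif_pos p.2.2
  · intro k
    rw [continuousOn_iff_continuous_domRestrict]
    have h0 : Continuous fun p : (ball (0:P) δ ×ˢ closedBall (0:ℂ) 1 : Set (P × ℂ)) =>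
        fderiv ℂ u p.1.1 := by
      have := continuousOn_iff_continuous_domRestrict.1 huf'
      exact this.comp (f := fun p : (ball (0:P) δ ×ˢ closedBall (0:ℂ) 1 :
        Set (P × ℂ)) => (⟨p.1.1, p.2.1⟩ : ball (0:P) δ)) (by fun_prop)
    have h1 : Continuous fun p : (ball (0:P) δ ×ˢ closedBall (0:ℂ) 1 : Set (P × ℂ)) =>
        fderiv ℂ u p.1.1 k := h0.clm_apply continuous_const
    have h2 : Continuous fun p : (ball (0:P) δ ×ˢ closedBall (0:ℂ) 1 : Set (P × ℂ)) =>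
        (⟨p.1.2, p.2.2⟩ : KK) := by fun_prop
    have h3 : Continuous fun p : (ball (0:P) δ ×ˢ closedBall (0:ℂ) 1 : Set (P × ℂ)) =>
        (fderiv ℂ u p.1.1 k) (⟨p.1.2, p.2.2⟩ : KK) := h1.eval h2
    convert h3 using 2 with p
    have hz := p.2.2
    simp only [domRestrict_apply]
    have h4 : HasFDerivAt u (fderiv ℂ u p.1.1) p.1.1 :=
      ((hud p.1.1 p.2.1).differentiableAt (isOpen_ball.mem_nhds p.2.1)).hasFDerivAt
    have h5 := (ContinuousMap.evalCLM ℂ (⟨p.1.2, hz⟩ : KK) :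
      C(KK, E) →L[ℂ] E).hasFDerivAt.comp p.1.1 h4
    have h6 : HasFDerivAt (fun x => if hz : p.1.2 ∈ closedBall (0:ℂ) 1
        then u x ⟨p.1.2, hz⟩ else 0) ((ContinuousMap.evalCLM ℂ (⟨p.1.2, hz⟩ : KK) :
          C(KK, E) →L[ℂ] E).comp (fderiv ℂ u p.1.1)) p.1.1 := by
      convert h5 using 1
      funext s
      exact dif_pos hz
    rw [h6.fderiv]
    rfl
  · intro z hz
    have h1 : DifferentiableOn ℂ (fun x => u x ⟨z, hz⟩) (ball 0 δ) :=
      ((ContinuousMap.evalCLM ℂ (⟨z, hz⟩ : KK) :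
        C(KK, E) →L[ℂ] E).differentiable.comp_differentiableOn hud)
    refine h1.congr ?_
    intro s _
    simp only [dif_pos hz]
  · intro z
    by_cases hz : z ∈ closedBall (0:ℂ) 1
    · simp only [dif_pos hz]
      have : u 0 = 0 := by
        rw [hu]; simp only [map_zero]; exact Δ.V_zero jj S
      rw [this]; rfl
    · simp only [dif_neg hz]
  · intro z hz
    have h4 : HasFDerivAt u ((ContinuousLinearMap.id ℂ C(KK, E)).comp W') 0 := by
      have h5 : HasFDerivAt (Δ.V jj S) (ContinuousLinearMap.id ℂ C(KK, E)) (W' 0) := by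
        rw [map_zero]; exact Δ.V_hasFDerivAt_zero jj S
      exact h5.comp 0 W'.hasFDerivAt
    have h5 := (ContinuousMap.evalCLM ℂ (⟨z, hz⟩ : KK) :
      C(KK, E) →L[ℂ] E).hasFDerivAt.comp (0:P) h4
    have e1 : ((ContinuousMap.evalCLM ℂ (⟨z, hz⟩ : KK) : C(KK, E) →L[ℂ] E).comp
        ((ContinuousLinearMap.id ℂ C(KK, E)).comp W')) = W z := by
      ext x
      exact hW' x ⟨z, hz⟩
    rw [e1] at h5
    convert h5 using 1
    funext s
    exact dif_pos hz
  · intro x hx z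
    by_cases hz : z ∈ closedBall (0:ℂ) 1
    · simp only [dif_pos hz]
      exact ((u x).norm_coe_le_norm ⟨z, hz⟩).trans_lt (hun x hx)
    · simp only [dif_neg hz, norm_zero]
      exact hQ.hρ
  · intro x hx z
    by_cases hz : z ∈ closedBall (0:ℂ) 1
    · simp only [dif_pos hz]
      refine ((u x).norm_coe_le_norm ⟨z, hz⟩).trans ((hun2 x hx).trans ?_)
      have h1 := norm_nonneg x
      have h2 : 2 * B ≤ C := by
        have : 0 ≤ 16 * ‖S‖ * A * B ^ 2 := by positivity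
        linarith
      gcongr
    · simp only [dif_neg hz, norm_zero]
      positivity
  · intro x hx z hz
    simp only [dif_pos hz]
    have h1 := Δ.V_sub_norm jj S (hsm x hx).le
    have h2 := (Δ.V jj S (W' x) - W' x).norm_coe_le_norm ⟨z, hz⟩
    have e : (Δ.V jj S (W' x) - W' x) ⟨z, hz⟩ = u x ⟨z, hz⟩ - W z x := by
      rw [ContinuousMap.sub_apply, hW']
    rw [e] at h2
    refine h2.trans (h1.trans ?_)
    have h3 := hWx x
    calc 4 * ‖S‖ * Δ.A * ‖W' x‖ ^ 2 ≤ 4 * ‖S‖ * A * (B * ‖x‖) ^ 2 := by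
          gcongr
          exact le_rfl
      _ = 4 * ‖S‖ * A * B ^ 2 * ‖x‖ ^ 2 := by ring
      _ ≤ C * ‖x‖ ^ 2 := by
          have : 4 * ‖S‖ * A * B ^ 2 ≤ C := by
            have h4 : 0 ≤ 12 * ‖S‖ * A * B ^ 2 := by positivity
            rw [hC]; linarith
          gcongr
  · intro x hx y hy z hz
    simp only [dif_pos hz]
    have h1 := Δ.V_sub_lip jj S (hsm x hx).le (hsm y hy).le
    have h2 := ((Δ.V jj S (W' x) - W' x) - (Δ.V jj S (W' y) - W' y)).norm_coe_le_norm ⟨z, hz⟩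
    have e : ((Δ.V jj S (W' x) - W' x) - (Δ.V jj S (W' y) - W' y)) ⟨z, hz⟩
        = (u x ⟨z, hz⟩ - W z x) - (u y ⟨z, hz⟩ - W z y) := by
      rw [ContinuousMap.sub_apply, ContinuousMap.sub_apply, ContinuousMap.sub_apply, hW', hW']
    rw [e] at h2
    refine h2.trans (h1.trans ?_)
    have h3 := hWx x
    have h4 := hWx y
    have h5 : ‖W' x - W' y‖ ≤ B * ‖x - y‖ := by
      rw [← map_sub]; exact hWx _
    calc 16 * ‖S‖ * Δ.A * (‖W' x‖ + ‖W' y‖) * ‖W' x - W' y‖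
        ≤ 16 * ‖S‖ * A * (B * ‖x‖ + B * ‖y‖) * (B * ‖x - y‖) := by
          gcongr
          exact le_rfl
      _ = 16 * ‖S‖ * A * B ^ 2 * (‖x‖ + ‖y‖) * ‖x - y‖ := by ring
      _ ≤ C * (‖x‖ + ‖y‖) * ‖x - y‖ := by
          have : 16 * ‖S‖ * A * B ^ 2 ≤ C := by rw [hC]; linarith
          gcongr
  · intro x hx z hz
    have h1 : u x = W' x - S (Δ.N jj (u x)) := Δ.V_eq jj S (hsm x hx).le
    have h2 := congrArg (fun g : C(KK, E) => g ⟨z, hz⟩) h1
    simp only [ContinuousMap.sub_apply] at h2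
    have hext : ∀ w ∈ ball (0:ℂ) 1, ext κ (Δ.N jj (u x)) w
        = Q w (if hz : w ∈ closedBall (0:ℂ) 1 then u x ⟨w, hz⟩ else 0) := by
      intro w hw
      have hw' : w ∈ closedBall (0:ℂ) 1 := ball_subset_closedBall hw
      rw [ext_apply _ _ hw, Δ.N_apply jj (hun x hx), dif_pos hw']
      have hk : (κ w : ℂ) ≠ 0 := by exact_mod_cast (h.κpos w hw).ne'
      change (κ w : ℂ) • (((κ w : ℂ))⁻¹ • Q w (u x ⟨w, hw'⟩)) = _
      rw [smul_smul, mul_inv_cancel₀ hk, one_smul]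
    rw [hS, h.S_apply, hW'] at h2
    rw [h.congr _ _ hext z hz] at h2
    simp only [dif_pos hz]
    exact h2

end Param

end Vale.Agent.P272.DEF
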